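import Vale.Agent.N344.Rec

/-!
P344: from the zeta transform to the Fourier transform without loss in the exponent. The orders are
products of consecutive primes.
-/

namespace Vale.Agent.N344

open Matrix Vale.Agent.P344 Vale.Agent.P344.R2.H715 Vale.Agent.P344.R2.H527

theorem nth_prime_le (k : ℕ) : Nat.nth Nat.Prime k ≤ 16 * (k + 1) ^ 2 := by
  by_contra h
  rw [not_le] at h
  set N := 16 * (k + 1) ^ 2 with hN
  have h1 : Nat.primeCounting N ≤ k := by
    rw [← Nat.primeCounting'_nth_eq k]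
    exact Nat.monotone_primeCounting' h
  have h2 := (Chebyshev.psi_ge N).trans (Chebyshev.psi_le_primeCounting_mul_log N)
  have hk : (0 : ℝ) ≤ k := Nat.cast_nonneg k
  have hNr : (N : ℝ) = (4 * (k + 1)) ^ 2 := by rw [hN]; push_cast; ring
  have h3 : Real.log (N + 1) ≤ 2 * (4 * (k + 1)) := by
    have h4 : Real.log (N + 1) ≤ Real.log ((4 * (k + 1) + 1) ^ 2) :=
      Real.log_le_log (by positivity) (by rw [hNr]; nlinarith)
    have h5 := Real.log_le_sub_one_of_pos (show (0 : ℝ) < 4 * (k + 1) + 1 by positivity)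
    rw [Real.log_pow] at h4
    push_cast at h4
    linarith
  have h4 : Real.log N ≤ Real.log (N + 1) :=
    Real.log_le_log (by rw [hNr]; positivity) (by linarith)
  have h5 : (Nat.primeCounting N : ℝ) * Real.log N ≤ k * (2 * (4 * (k + 1))) :=
    mul_le_mul (by exact_mod_cast h1) (h4.trans h3) (Real.log_natCast_nonneg N) hk
  have h6 := mul_le_mul_of_nonneg_left Real.log_two_gt_d9.le (Nat.cast_nonneg (α := ℝ) N)
  rw [hNr] at h6
  rw [hNr] at h2 h3 h5
  nlinarith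

/-- The primes from seven on. -/
noncomputable def pr (i : ℕ) : ℕ := Nat.nth Nat.Prime (i + 3)

/-- The orders. -/
noncomputable def Rp (q : ℕ) : ℕ := ∏ i ∈ Finset.range (2 * q), pr i

theorem pr_ge (i : ℕ) : 6 ≤ pr i ∧ i + 1 ≤ pr i := by
  have h1 := Nat.add_two_le_nth_prime (i + 3)
  have h2 : Nat.nth Nat.Prime 3 ≤ pr i :=
    (Nat.nth_monotone Nat.infinite_setOfPred_prime) (by omega)
  rw [Nat.nth_prime_three_eq_seven] at h2
  exact ⟨by omega, by unfold pr; omega⟩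

theorem pr_ne (i : ℕ) : pr i ≠ 0 := by have := (pr_ge i).1; omega

theorem pr_coprime {i j : ℕ} (h : i < j) : Nat.Coprime (pr i) (pr j) :=
  (Nat.coprime_primes (Nat.prime_nth_prime _) (Nat.prime_nth_prime _)).2
    (Nat.nth_strictMono Nat.infinite_setOfPred_prime (by omega)).ne

theorem pr_le {q i : ℕ} (hq : 1 ≤ q) (hi : i ≤ 2 * q + 1) : pr i ≤ 256 * (q + 1) ^ 2 := by
  have h1 : (i + 3 + 1) ^ 2 ≤ (4 * (q + 1)) ^ 2 := Nat.pow_le_pow_left (by omega) 2
  have h2 := nth_prime_le (i + 3)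
  unfold pr
  nlinarith

theorem Rp_split (q : ℕ) : Rp q = (∏ i ∈ Finset.range q, pr i) *
    ∏ i ∈ Finset.range q, pr (q + i) := by
  unfold Rp
  rw [two_mul, Finset.prod_range_add]

theorem Rp_pos (q : ℕ) : 0 < Rp q := Finset.prod_pos fun i _ => Nat.pos_of_ne_zero (pr_ne i)

theorem Rp_ge (q : ℕ) : 2 ^ (2 * q) ≤ Rp q ∧ (q + 1) ^ q ≤ Rp q := by
  refine ⟨prod_ge _ _ fun i _ => by have := (pr_ge i).1; omega, ?_⟩
  rw [Rp_split]
  exact (prod_ge (fun i => pr (q + i)) _ fun i _ => by have := (pr_ge (q + i)).2; omega).trans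
    (Nat.le_mul_of_pos_left _ (Finset.prod_pos fun i _ => Nat.pos_of_ne_zero (pr_ne i)))

theorem exists_order' {n : ℕ} (hn : Rp 1 ≤ n) : ∃ q k : ℕ, 1 ≤ q ∧ Rp q ≤ n ∧
    2 * n ≤ 2 ^ k * Rp q ∧ 2 ^ k * Rp q ≤ 4 * n ∧ 2 ^ k ≤ 2 ^ 18 * (q + 1) ^ 4 := by
  classical
  have hex : ∃ q, n < Rp (q + 1) := ⟨n, lt_of_lt_of_le (Nat.lt_two_pow_self.trans_le
    (Nat.pow_le_pow_right (by norm_num) (by omega))) (Rp_ge (n + 1)).1⟩
  set q := Nat.find hex with hqdef
  have hq : n < Rp (q + 1) := Nat.find_spec hex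
  have hq1 : 1 ≤ q := by
    by_contra hcon
    have h0 : q = 0 := by omega
    rw [h0] at hq
    exact absurd hn (not_le.2 hq)
  have hRn : Rp q ≤ n := by
    have h1 := Nat.find_min hex (m := q - 1) (by omega)
    rwa [not_lt, show q - 1 + 1 = q by omega] at h1
  have hR0 := Rp_pos q
  have hex2 : ∃ k, 2 * n ≤ 2 ^ k * Rp q :=
    ⟨2 * n, Nat.lt_two_pow_self.le.trans (Nat.le_mul_of_pos_right _ hR0)⟩
  set k := Nat.find hex2 with hkdef
  have hk : 2 * n ≤ 2 ^ k * Rp q := Nat.find_spec hex2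
  have hk1 : 1 ≤ k := by
    by_contra hcon
    have h0 : k = 0 := by omega
    rw [h0, pow_zero, one_mul] at hk
    omega
  have hk4 : 2 ^ k * Rp q ≤ 4 * n := by
    have h1 := Nat.find_min hex2 (m := k - 1) (by omega)
    rw [not_le] at h1
    rw [show k = k - 1 + 1 by omega, pow_succ, mul_right_comm]
    omega
  refine ⟨q, k, hq1, hRn, hk, hk4, Nat.le_of_mul_le_mul_right (hk4.trans ?_) hR0⟩
  have h1 : Rp (q + 1) = Rp q * (pr (2 * q) * pr (2 * q + 1)) := by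
    unfold Rp
    rw [show 2 * (q + 1) = 2 * q + 1 + 1 by ring, Finset.prod_range_succ, Finset.prod_range_succ,
      mul_assoc]
  have h2 := Nat.mul_le_mul_left (Rp q)
    (Nat.mul_le_mul (pr_le hq1 (i := 2 * q) (by omega)) (pr_le hq1 le_rfl))
  nlinarith

theorem logb_poly {q a b x : ℕ} (hx : 0 < x) (h : x ≤ 2 ^ a * (q + 1) ^ b) :
    Real.logb 2 x ≤ a + b * Real.logb 2 (q + 1) := by
  have h1 : (x : ℝ) ≤ 2 ^ a * (q + 1) ^ b := by exact_mod_cast h
  have h2 := Real.logb_le_logb_of_le (b := 2) (by norm_num) (by exact_mod_cast hx) h1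
  rwa [Real.logb_mul (by positivity) (by positivity), Real.logb_pow, Real.logb_pow,
    Real.logb_self_eq_one (by norm_num), mul_one] at h2

theorem one_le_logb {q : ℕ} (hq : 1 ≤ q) : 1 ≤ Real.logb 2 (q + 1) := by
  have := logb_pos_of_two_le (m := q + 1) (by omega)
  exact_mod_cast this

theorem cost_prod' {a b : ℝ} (ha : 0 ≤ a) (hb : 0 ≤ b) (hr : Rate a b) {t : ℕ} (f : ℕ → ℕ)
    (hf : ∀ i, f i ≠ 0) {q : ℕ} (hcop : ∀ i j, i < j → j < q → Nat.Coprime (f i) (f j))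
    (hw : ∀ i < q, Word Layer t (tensor (1 : Matrix (Fin 3 × Bool) (Fin 3 × Bool) ℂ) (F (f i))))
    {N : ℕ} (hN : 6 ^ q ≤ N) :
    ∃ s : ℕ, Cost (tensor (1 : Matrix (Fin N) (Fin N) ℂ) (F (∏ i ∈ Finset.range q, f i))) s ∧
      (s : ℝ) ≤ 2 * N * (∏ i ∈ Finset.range q, f i : ℕ) * (t * (a * q + b) + (t + 1)) := by
  obtain ⟨s, hs, hb'⟩ := ((word_prod ha hr f hf q hcop hw).imp (G₂ := fun S => ∃ s : ℕ, Cost S s ∧
    (s : ℝ) ≤ Fintype.card (Fin (6 ^ q) × Fin (∏ i ∈ Finset.range q, f i)) * (a * q + b))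
    fun S hS => hS.cost).cost
  have h6 : 0 < 6 ^ q := by positivity
  refine ⟨_, cost_batch h6 hs N, ?_⟩
  rw [Fintype.card_prod, Fintype.card_fin, Fintype.card_fin] at hb'
  set P : ℕ := ∏ i ∈ Finset.range q, f i with hP
  set X : ℝ := t * (a * q + b) + (t + 1) with hX
  have hX0 : 0 ≤ X := by positivity
  have hs' : (s : ℝ) ≤ (6 ^ q : ℕ) * P * X := by
    refine hb'.trans (le_of_eq ?_)
    rw [hX]
    push_cast
    ring
  have h4 : (N / 6 ^ q + 1) * 6 ^ q ≤ 2 * N := by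
    have := Nat.div_mul_le_self N (6 ^ q)
    linarith
  have h4' : ((N / 6 ^ q + 1 : ℕ) : ℝ) * (6 ^ q : ℕ) ≤ 2 * N := by exact_mod_cast h4
  calc (((N / 6 ^ q + 1) * s : ℕ) : ℝ) = ((N / 6 ^ q + 1 : ℕ) : ℝ) * s := by push_cast; ring
    _ ≤ ((N / 6 ^ q + 1 : ℕ) : ℝ) * ((6 ^ q : ℕ) * P * X) :=
      mul_le_mul_of_nonneg_left hs' (Nat.cast_nonneg _)
    _ = (((N / 6 ^ q + 1 : ℕ) : ℝ) * (6 ^ q : ℕ)) * (P * X) := by ring
    _ ≤ (2 * N) * (P * X) := mul_le_mul_of_nonneg_right h4' (by positivity)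
    _ = 2 * N * P * X := by ring

theorem cost_Rp {a b : ℝ} (ha : 0 ≤ a) (hb : 0 ≤ b) (hr : Rate a b) {q : ℕ} (hq : 1 ≤ q) :
    ∃ s : ℕ, Cost (F (Rp q)) s ∧
      (s : ℝ) ≤ 4 * Rp q * (1801 * (Real.logb 2 (q + 1) * (a * q + b + 1))) := by
  have hℓ1 := one_le_logb hq
  set ℓ : ℝ := Real.logb 2 (q + 1) with hℓ
  set t : ℕ := ⌊1800 * ℓ⌋₊ with ht
  have htℓ : (t : ℝ) ≤ 1800 * ℓ := Nat.floor_le (by positivity)
  have hw : ∀ i < 2 * q, Word Layer t
      (tensor (1 : Matrix (Fin 3 × Bool) (Fin 3 × Bool) ℂ) (F (pr i))) := fun i hi => by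
    obtain ⟨s, hs, hsw⟩ := exists_word_six_F (pr_ne i)
    refine hsw.pad trivial (Nat.le_floor (hs.trans ?_))
    have h1 := logb_poly (a := 8) (Nat.pos_of_ne_zero (pr_ne i)) (pr_le hq (by omega))
    push_cast at h1
    linarith
  set M : ℕ := ∏ i ∈ Finset.range q, pr i with hM
  set P : ℕ := ∏ i ∈ Finset.range q, pr (q + i) with hP
  have hM0 : M ≠ 0 := Finset.prod_ne_zero_iff.2 fun i _ => pr_ne i
  have hP0 : P ≠ 0 := Finset.prod_ne_zero_iff.2 fun i _ => pr_ne _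
  have hM6 : 6 ^ q ≤ M := prod_ge _ _ fun i _ => (pr_ge i).1
  have hP6 : 6 ^ q ≤ P := prod_ge (fun i => pr (q + i)) _ fun i _ => (pr_ge _).1
  obtain ⟨s1, hs1, hb1⟩ := cost_prod' ha hb hr (t := t) pr pr_ne
    (fun i j hij _ => pr_coprime hij) (fun i hi => hw i (by omega)) hP6
  obtain ⟨s2, hs2, hb2⟩ := cost_prod' ha hb hr (t := t) (fun i => pr (q + i))
    (fun i => pr_ne _) (fun i j hij _ => pr_coprime (by omega))
    (fun i hi => hw _ (by omega)) hM6
  have hcop : Nat.Coprime M P := by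
    rw [hM, hP, Nat.coprime_prod_left_iff]
    intro i hi
    rw [Nat.coprime_prod_right_iff]
    intro j _
    rw [Finset.mem_range] at hi
    exact pr_coprime (by omega)
  refine ⟨s1 + s2, by rw [Rp_split]; exact cost_coprime hM0 hP0 hcop hs1 hs2, ?_⟩
  set X : ℝ := t * (a * q + b) + (t + 1) with hX
  have h0 : 0 ≤ a * q + b := by positivity
  have hXb : X ≤ 1801 * (ℓ * (a * q + b + 1)) := by
    have e1 := mul_le_mul_of_nonneg_right htℓ h0
    have e2 := mul_nonneg (zero_le_one.trans hℓ1) h0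
    rw [hX]
    linarith
  have hR : (Rp q : ℝ) = M * P := by rw [Rp_split, Nat.cast_mul]
  push_cast
  calc (s1 : ℝ) + s2 ≤ 2 * P * M * X + 2 * M * P * X := add_le_add hb1 hb2
    _ = 4 * (M * P) * X := by ring
    _ ≤ 4 * (M * P) * (1801 * (ℓ * (a * q + b + 1))) :=
      mul_le_mul_of_nonneg_left hXb (by positivity)
    _ = _ := by rw [hR]

theorem L_le_large {a b : ℝ} (ha : 0 ≤ a) (hb : 0 ≤ b) (hr : Rate a b) {n : ℕ} (hn : Rp 1 ≤ n) :
    (L n : ℝ) ≤ 60000 * (n * (a * Real.logb 2 n + (b + 1) * Real.logb 2 (Real.logb 2 n))) := by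
  obtain ⟨q, k, hq, hRn, h2n, h4n, hk⟩ := exists_order' hn
  have hn0 : 0 < n := lt_of_lt_of_le (Rp_pos 1) hn
  have hnr : (0 : ℝ) < n := by exact_mod_cast hn0
  have hℓ1 := one_le_logb hq
  have hkℓ := logb_poly (by positivity) hk
  obtain ⟨s, hs, hsb⟩ := cost_Rp ha hb hr hq
  set ℓ : ℝ := Real.logb 2 (q + 1) with hℓ
  have hq1 : (1 : ℝ) ≤ q := by exact_mod_cast hq
  have hcop : Nat.Coprime (2 ^ k) (Rp q) := by
    refine Nat.Coprime.pow_left _ (Nat.coprime_prod_right_iff.2 fun i _ => ?_)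
    refine (Nat.coprime_primes Nat.prime_two (Nat.prime_nth_prime _)).2 ?_
    have := (pr_ge i).1
    unfold pr at this
    omega
  have hL := L_le_of_cost hn0.ne' h2n
    (cost_coprime_single (by positivity) (Rp_pos q).ne' hcop (cost_F_two_pow k) hs)
  push_cast at hkℓ
  rw [Real.logb_pow, Real.logb_self_eq_one (by norm_num), mul_one] at hkℓ
  have key : ℓ * (a * q + b + 1) ≤
      a * Real.logb 2 n + (b + 1) * Real.logb 2 (Real.logb 2 n) := by
    have lg : ∀ x : ℕ, 0 < x → x ≤ n → Real.logb 2 x ≤ Real.logb 2 n := fun x h0 hx =>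
      Real.logb_le_logb_of_le (by norm_num) (by exact_mod_cast h0) (by exact_mod_cast hx)
    have h1 := lg _ (by positivity) ((Rp_ge q).1.trans hRn)
    have h2 := lg _ (by positivity) ((Rp_ge q).2.trans hRn)
    push_cast at h1 h2
    rw [Real.logb_pow] at h1 h2
    rw [Real.logb_self_eq_one (by norm_num)] at h1
    push_cast at h1
    have h3 : ℓ ≤ Real.logb 2 (Real.logb 2 n) :=
      Real.logb_le_logb_of_le (by norm_num) (by positivity) (by linarith)
    have h4 := mul_le_mul_of_nonneg_left h2 ha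
    have h5 := mul_le_mul_of_nonneg_left h3 (add_nonneg hb zero_le_one)
    linarith
  refine le_trans ?_ (mul_le_mul_of_nonneg_left (mul_le_mul_of_nonneg_left key hnr.le)
    (by positivity))
  have e4 : ℓ ≤ ℓ * (a * q + b + 1) :=
    le_mul_of_one_le_right (by positivity) (le_add_of_nonneg_left (by positivity))
  set Y : ℝ := ℓ * (a * q + b + 1) with hY
  have hY0 : 0 ≤ Y := by linarith
  have hN : (2 : ℝ) ^ k * Rp q ≤ 4 * n := by exact_mod_cast h4n
  have hL' : (L n : ℝ) ≤ 2 * (Rp q * ((4 * k + 1) * 2 ^ k) + 2 ^ k * s) + 2 ^ k * Rp q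
      + 2 * n := by exact_mod_cast hL
  have e0 : (2 : ℝ) ^ k * s ≤ 2 ^ k * (4 * Rp q * (1801 * Y)) :=
    mul_le_mul_of_nonneg_left hsb (by positivity)
  have e1 : (L n : ℝ) ≤ (2 ^ k * Rp q) * (2 * (4 * k + 1) + 8 * (1801 * Y) + 1) + 2 * n := by
    linarith
  have e2 : ((2 : ℝ) ^ k * Rp q) * (2 * (4 * k + 1) + 8 * (1801 * Y) + 1) ≤
      (4 * n) * (2 * (4 * k + 1) + 8 * (1801 * Y) + 1) :=
    mul_le_mul_of_nonneg_right hN (by positivity)
  have e5 : 2 * (4 * (k : ℝ) + 1) + 8 * (1801 * Y) + 1 ≤ 14600 * Y := by linarith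
  have e6 := mul_le_mul_of_nonneg_left e5 (by positivity : (0 : ℝ) ≤ 4 * n)
  have e7 : (n : ℝ) * 1 ≤ n * Y := mul_le_mul_of_nonneg_left (by linarith) hnr.le
  linarith

/-- A bound for large `n` is a bound for all `n`. -/
theorem all_of_large {f g : ℕ → ℝ} {a N : ℕ} {C : ℝ} (hf : ∀ n, 0 ≤ f n)
    (hg : ∀ n, a ≤ n → 0 < g n) (h : ∀ n, N ≤ n → f n ≤ C * g n) :
    ∃ K : ℝ, ∀ n, a ≤ n → f n ≤ K * g n := by
  refine ⟨max C (∑ k ∈ Finset.Ico a N, f k / g k), fun n hn => ?_⟩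
  rcases le_or_gt N n with h1 | h1
  · exact (h n h1).trans (mul_le_mul_of_nonneg_right (le_max_left _ _) (hg n hn).le)
  · rw [← div_le_iff₀ (hg n hn)]
    exact (Finset.single_le_sum (f := fun k => f k / g k)
      (fun k hk => div_nonneg (hf k) (hg k (Finset.mem_Ico.1 hk).1).le)
      (Finset.mem_Ico.2 ⟨hn, h1⟩)).trans (le_max_right _ _)

theorem logs_ge {n : ℕ} (hn : 4 ≤ n) : 2 ≤ Real.logb 2 n ∧ 1 ≤ Real.logb 2 (Real.logb 2 n) ∧
    Real.logb 2 (Real.logb 2 n) ≤ Real.logb 2 n := by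
  have h1 : 2 ≤ Real.logb 2 n := by
    rw [Real.le_logb_iff_rpow_le (by norm_num) (by exact_mod_cast (by omega : 0 < n))]
    norm_num
    exact hn
  refine ⟨h1, ?_, Real.logb_le_logb_of_le (by norm_num) (by linarith) (logb_le_self (by omega))⟩
  rw [Real.le_logb_iff_rpow_le (by norm_num) (by linarith), Real.rpow_one]
  exact h1

/-- The transfer, with an absolute constant. -/
theorem L_le_aff : ∃ K : ℝ, 0 ≤ K ∧ ∀ a b : ℝ, 0 ≤ a → 0 ≤ b → Rate a b → ∀ n : ℕ, 4 ≤ n →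
    (L n : ℝ) ≤ K * (n * (a * Real.logb 2 n + (b + 1) * Real.logb 2 (Real.logb 2 n))) := by
  refine ⟨60000 + ∑ k ∈ Finset.range (Rp 1), (L k : ℝ), by positivity, fun a b ha hb hr n hn => ?_⟩
  obtain ⟨h1, h2, -⟩ := logs_ge hn
  have h3 : (1 : ℝ) ≤ n * (a * Real.logb 2 n + (b + 1) * Real.logb 2 (Real.logb 2 n)) := by
    have h4 : (1 : ℝ) ≤ n := by exact_mod_cast (by omega : 1 ≤ n)
    have h5 : 0 ≤ a * Real.logb 2 n := by positivity
    exact one_le_mul_of_one_le_of_one_le h4 (by nlinarith)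
  have h4 : 0 ≤ ∑ k ∈ Finset.range (Rp 1), (L k : ℝ) := by positivity
  rcases le_or_gt (Rp 1) n with h | h
  · have := L_le_large ha hb hr h
    nlinarith
  · have := Finset.single_le_sum (f := fun k => (L k : ℝ)) (fun _ _ => Nat.cast_nonneg _)
      (Finset.mem_range.2 h)
    nlinarith

theorem logb_rpow_le {p ε : ℝ} (hp : 0 < p) (hε : 0 < ε) :
    ∃ c : ℝ, 0 ≤ c ∧ ∀ y : ℝ, 1 ≤ y → Real.logb 2 y ^ p ≤ c * y ^ ε := by
  have h2 : 0 < Real.log 2 := Real.log_pos (by norm_num)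
  refine ⟨(1 / (ε / p * Real.log 2)) ^ p, by positivity, fun y hy => ?_⟩
  have h1 : Real.logb 2 y ≤ 1 / (ε / p * Real.log 2) * y ^ (ε / p) := by
    rw [Real.logb, div_le_iff₀ h2]
    refine (Real.log_le_rpow_div (by linarith) (div_pos hε hp)).trans (le_of_eq ?_)
    field_simp
  refine (Real.rpow_le_rpow (Real.logb_nonneg (by norm_num) hy) h1 hp.le).trans (le_of_eq ?_)
  rw [Real.mul_rpow (by positivity) (by positivity), ← Real.rpow_mul (by linarith),
    div_mul_cancel₀ _ hp.ne']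

/-- The transfer for powers. -/
theorem L_le_pow {α β C : ℝ} (hα0 : 0 < α) (hα1 : α < 1) (hβ : α < β) (hC : 0 ≤ C)
    (hz : ∀ n : ℕ, 1 ≤ n → zr n ≤ C * (n : ℝ) ^ α) :
    ∃ K : ℝ, ∀ n : ℕ, 2 ≤ n → (L n : ℝ) ≤ K * (n * Real.logb 2 n ^ β) := by
  obtain ⟨K, hK0, hK⟩ := L_le_aff
  obtain ⟨c, hc0, hc⟩ := logb_rpow_le (p := 1 - α) (ε := β - α) (by linarith) (by linarith)
  refine all_of_large (N := 4) (C := K * ((C + 1) * c)) (fun _ => Nat.cast_nonneg _)
    (fun n hn => ?_) fun n hn => ?_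
  · have h1 := logb_pos_of_two_le hn
    have h2 : (0 : ℝ) < n := by exact_mod_cast (by omega : 0 < n)
    positivity
  obtain ⟨h1, h2, h3⟩ := logs_ge hn
  have h4 := hc (Real.logb 2 n) (by linarith)
  set y := Real.logb 2 n with hy
  set u := Real.logb 2 y with hu
  have hx : 0 < y / u := by positivity
  have h5 := hK _ _ (by positivity) (mul_nonneg (mul_nonneg (by linarith) hC) (by positivity))
    (rate_of_le hα0 hα1 hC hx hz) n hn
  have h6 : (y / u) ^ α * u = y ^ α * u ^ (1 - α) := by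
    rw [Real.div_rpow (by positivity) (by positivity), Real.rpow_sub (by positivity),
      Real.rpow_one]
    ring
  have h7 : α * C * (y / u) ^ (α - 1) * y + ((1 - α) * C * (y / u) ^ α + 1) * u =
      C * ((y / u) ^ α * u) + u := by
    have h8 := tangent_self (α := α) (C := C) hx
    have h9 : y = y / u * u := by field_simp
    linear_combination u * h8 + α * C * (y / u) ^ (α - 1) * h9
  have h8 : 1 * u ≤ (y / u) ^ α * u := mul_le_mul_of_nonneg_right
    (Real.one_le_rpow ((one_le_div (by positivity)).2 h3) hα0.le) (by positivity)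
  have h9 : y ^ α * u ^ (1 - α) ≤ c * y ^ β := by
    refine (mul_le_mul_of_nonneg_left h4 (by positivity)).trans (le_of_eq ?_)
    rw [mul_left_comm, ← Real.rpow_add (by positivity), add_sub_cancel]
  rw [← hy, ← hu, h7] at h5
  refine h5.trans ?_
  have h10 : C * ((y / u) ^ α * u) + u ≤ (C + 1) * (c * y ^ β) := by
    have := mul_le_mul_of_nonneg_left (h6.le.trans h9) (add_nonneg hC zero_le_one)
    linarith
  calc K * (n * (C * ((y / u) ^ α * u) + u)) ≤ K * (n * ((C + 1) * (c * y ^ β))) := by gcongr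
    _ = _ := by ring

end Vale.Agent.N344
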