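import Vale.Agent.N344.Defs
import Vale.Agent.N344.Primes
import Vale.Agent.P344D17.Br

/-!
P344: acyclic graphs and straight-line derivations have the same least size; the main statements.
-/

namespace Vale.Agent.N344

open Matrix Vale.Agent.P344 Vale.Agent.P344.R2.H715 Vale.Agent.P344.R2.H527 Vale.Agent.P344X18
open Vale.Agent.P344D17 (Node Op pre_of_steps)

theorem circuit_of_cost {n s : ℕ} {A : Matrix (Fin n) (Fin n) ℂ} (h : Cost A s) :
    ∃ C : P344D17.Circuit n, C.Computes A ∧ Nat.card C.G ≤ s := by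
  obtain ⟨d0, h⟩ := h
  obtain ⟨s', hs', V, hV, hF⟩ := h.computes (D := ⊤) le_top
  obtain ⟨G, hG, op, dep, w, hc, -, hr, hw, hu⟩ := pre_of_steps hV
  choose d _ hd using hF
  choose out hout using fun j => hu _ (hd j)
  have hlt : ∀ a b, Relation.TransGen (fun a b => (op b).Reads (.gate a)) a b →
      dep a < dep b := by
    intro a b hab
    induction hab with
    | single h => exact hr _ _ h
    | tail _ h ih => exact ih.trans (hr _ _ h)
  refine ⟨⟨G, hG, op, fun g hg => lt_irrefl _ (hlt g g hg), out⟩, fun x w' hw' j => ?_,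
    hc.le.trans hs'⟩
  have e : w' = w x := (P344D17.Circuit.existsUnique_run _ x).unique hw' (hw x)
  subst e
  exact (hout j x).symm

theorem cost_of_circuit {n : ℕ} {A : Matrix (Fin n) (Fin n) ℂ} (C : P344D17.Circuit n)
    (h : C.Computes A) : Cost A (Nat.card C.G) := by
  classical
  have := C.finite
  have := Fintype.ofFinite C.G
  choose w hw using fun x => (C.existsUnique_run x).exists
  let dep : C.G → ℕ := fun g => (Finset.univ.filter fun a =>
    Relation.TransGen (fun a b => (C.op b).Reads (.gate a)) a g).card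
  have hdep : ∀ a b, (C.op b).Reads (.gate a) → dep a < dep b := fun a b hab =>
    Finset.card_lt_card ⟨fun c hc => by
      simp only [Finset.mem_filter, Finset.mem_univ, true_and] at hc ⊢
      exact hc.tail hab, fun hs => by
      have h1 := hs (Finset.mem_filter.2 ⟨Finset.mem_univ a, .single hab⟩)
      exact C.acyclic a (Finset.mem_filter.1 h1).2⟩
  have node : ∀ (s : Finset C.G) (V : Set (ℕ × ((Fin n → ℂ) → ℂ))), inputs (Fin n) ⊆ V →
      (∀ g ∈ s, ∃ d, (d, fun x => w x g) ∈ V) → ∀ u : Node n C.G, (∀ c, u = .gate c → c ∈ s) →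
      ∃ d, (d, fun x => u.val x (w x)) ∈ V := fun s V h1 h2 u hu => by
    cases u with
    | zero => exact ⟨0, h1 (zero_mem_inputs _)⟩
    | input k => exact ⟨0, h1 (mem_inputs k)⟩
    | gate c => exact h2 c (hu c rfl)
  have key : ∀ s : Finset C.G, (∀ b ∈ s, ∀ a, (C.op b).Reads (.gate a) → a ∈ s) →
      ∃ V, Steps Set.univ (inputs (Fin n)) s.card V ∧ ∀ g ∈ s, ∃ d, (d, fun x => w x g) ∈ V := by
    intro s
    induction s using Finset.induction_on_max_value dep with
    | empty => exact fun _ => ⟨_, .zero, fun g hg => absurd hg (Finset.notMem_empty g)⟩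
    | insert a s ha hmax ih =>
      intro hs
      have hin : ∀ b ∈ insert a s, ∀ c, (C.op b).Reads (.gate c) → c ∈ s := fun b hb c hc => by
        refine (Finset.mem_insert.1 (hs b hb c hc)).resolve_left fun e => ?_
        have h1 := hdep c b hc
        rcases Finset.mem_insert.1 hb with e' | e'
        · rw [e, e'] at h1
          exact lt_irrefl _ h1
        · rw [e] at h1
          exact absurd (hmax b e') (not_le.2 h1)
      obtain ⟨V, hV, hg⟩ := ih fun b hb => hin b (Finset.mem_insert_of_mem hb)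
      have hn := fun u (hu : (C.op a).Reads u) => node s V hV.subset hg u
        fun c e => hin a (Finset.mem_insert_self a s) c (e ▸ hu)
      have fin : ∀ p : ℕ × ((Fin n → ℂ) → ℂ), (p.2 = fun x => w x a) →
          ∀ g ∈ insert a s, ∃ d, (d, fun x => w x g) ∈ insert p V := fun p hp g hg' => by
        rcases Finset.mem_insert.1 hg' with e | e
        · exact ⟨p.1, Or.inl (by rw [e, ← hp])⟩
        · exact (hg g e).imp fun d hd => Or.inr hd
      have hwa := fun x => hw x a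
      rw [Finset.card_insert_of_notMem ha]
      generalize C.op a = o at hn hwa
      cases o with
      | add u v =>
        obtain ⟨d, hd⟩ := hn u (Or.inl rfl)
        obtain ⟨e, he⟩ := hn v (Or.inr rfl)
        exact ⟨_, hV.add hd he, fin _ (funext fun x => (hwa x).symm)⟩
      | sub u v =>
        obtain ⟨d, hd⟩ := hn u (Or.inl rfl)
        obtain ⟨e, he⟩ := hn v (Or.inr rfl)
        exact ⟨_, hV.sub hd he, fin _ (funext fun x => (hwa x).symm)⟩
      | smul c u =>
        obtain ⟨d, hd⟩ := hn u rfl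
        exact ⟨_, hV.smul c hd (Set.mem_univ c), fin _ (funext fun x => (hwa x).symm)⟩
  obtain ⟨V, hV, hg⟩ := key Finset.univ fun _ _ a _ => Finset.mem_univ a
  rw [Finset.card_univ, ← Nat.card_eq_fintype_card] at hV
  refine ⟨_, Computes.blk (D := ⊤) ⟨V, hV, fun j => ?_⟩⟩
  obtain ⟨d, hd⟩ := node _ V hV.subset hg (C.out j) fun c _ => Finset.mem_univ c
  refine ⟨d, le_top, ?_⟩
  convert hd using 2
  funext x
  exact (h x _ (hw x) j).symm

theorem size_isLeast {n : ℕ} (A : Matrix (Fin n) (Fin n) ℂ) :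
    IsLeast {s | ∃ C : P344D17.Circuit n, C.Computes A ∧ Nat.card C.G = s} (size A) := by
  obtain ⟨C, hC, -⟩ := circuit_of_cost (cmin_spec A)
  exact ⟨Nat.sInf_mem ⟨_, C, hC, rfl⟩, fun s hs => Nat.sInf_le hs⟩

theorem size_le {n s : ℕ} {A : Matrix (Fin n) (Fin n) ℂ} (h : Cost A s) : size A ≤ s := by
  obtain ⟨C, hC, hs⟩ := circuit_of_cost h
  exact ((size_isLeast A).2 ⟨C, hC, rfl⟩).trans hs

theorem cost_size {n : ℕ} (A : Matrix (Fin n) (Fin n) ℂ) : Cost A (size A) := by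
  obtain ⟨C, hC, e⟩ := (size_isLeast A).1
  exact e ▸ cost_of_circuit C hC

theorem size_F (n : ℕ) : size (P344D17.F n) = L n := by
  refine le_antisymm (size_le (cost_F n)) ?_
  obtain ⟨d, h⟩ := cost_size (P344D17.F n)
  obtain ⟨s', hs', hc⟩ := h.computes (D := ⊤) le_top
  exact (L_le hc).trans hs'

theorem eqv_kron {k : ℕ} (A : Matrix (Fin k) (Fin k) ℂ) (m : ℕ) : Eqv (kron A m) (tpow A m) :=
  ⟨finFunctionFinEquiv.symm, rfl⟩

theorem eqv_H (m : ℕ) : Eqv (kron (P344D17.F 2) m) (tpow H m) := by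
  refine (eqv_kron _ m).trans (Eqv.tpow ⟨finTwoEquiv, ?_⟩ m)
  ext j k
  rw [show P344D17.F 2 j k = zeta 2 ^ ((j : ℕ) * (k : ℕ)) from rfl, zeta_two]
  fin_cases j <;> fin_cases k <;> simp [finTwoEquiv]

theorem zr_le_pow' {δ : ℝ} (hδ : δ = 201 / 10 ^ 7) : ∃ C : ℝ, 0 ≤ C ∧ ∀ n : ℕ, 1 ≤ n →
    zr n ≤ C * (n : ℝ) ^ (1 - δ) := by
  obtain ⟨C, hC, h⟩ := rt_le_rpow' hδ
  refine ⟨3 * C + 10, by positivity, fun n hn => ?_⟩
  have h1 : (1 : ℝ) ≤ (n : ℝ) ^ (1 - δ) :=
    Real.one_le_rpow (by exact_mod_cast hn) (by rw [hδ]; norm_num)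
  have h2 := zr_le_rt n
  have h3 := h n hn
  linarith

/-- The new exponent for the Fourier transform. -/
theorem main_F : ∃ K : ℝ, ∀ n : ℕ, 2 ≤ n →
    (size (P344D17.F n) : ℝ) ≤ K * (n * Real.logb 2 n ^ (1 - 1 / 50000 : ℝ)) := by
  obtain ⟨C, hC, h⟩ := zr_le_pow' rfl
  simp only [size_F]
  exact L_le_pow (by norm_num) (by norm_num) (by norm_num) hC h

theorem word_list {ι : Type} [Fintype ι] [DecidableEq ι] (l : List (TransvectionStruct ι ℂ)) :
    Word Slide l.length (l.map TransvectionStruct.toMatrix).prod := by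
  induction l with
  | nil => exact Word.one
  | cons a l ih =>
    rw [List.map_cons, List.prod_cons, List.length_cons, Nat.add_comm]
    exact (word_transvection a.hij a.c).mul ih

theorem tpow_diag {ι : Type} [DecidableEq ι] (d : ι → ℂ) (K : ℕ) :
    tpow (diagonal d) K = diagonal fun x => ∏ i, d (x i) := by
  ext x y
  simp only [tpow_apply, diagonal_apply]
  split_ifs with h
  · subst h
    simp
  · obtain ⟨i, hi⟩ := Function.ne_iff.1 h
    exact Finset.prod_eq_zero (Finset.mem_univ i) (if_neg hi)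

theorem cost_word_pow {α C : ℝ} (hα0 : 0 < α) (hα1 : α < 1) (hC : 0 ≤ C)
    (hz : ∀ n : ℕ, 1 ≤ n → zr n ≤ C * (n : ℝ) ^ α) {k r : ℕ} (hk : 0 < k)
    {M : Matrix (Fin k) (Fin k) ℂ} (h : Word Slide r M) {m : ℕ} (hm : 1 ≤ m) :
    ∃ s : ℕ, Cost (tpow M m) s ∧ (s : ℝ) ≤ (r * (2 * C) + (r + 1)) * (k ^ m * (m : ℝ) ^ α) := by
  have hm0 : (0 : ℝ) < m := by exact_mod_cast hm
  have hk1 : (1 : ℝ) ≤ k := by exact_mod_cast hk
  obtain ⟨s, hs, hb⟩ := h.cost_tpow (by simpa using hk) (by positivity)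
    (rate_of_le hα0 hα1 hC hm0 hz) m
  refine ⟨s, hs, hb.trans ?_⟩
  rw [Fintype.card_fin]
  have h1 := tangent_self (α := α) (C := C) hm0
  have h2 : (1 : ℝ) ≤ (m : ℝ) ^ α := Real.one_le_rpow (by exact_mod_cast hm) hα0.le
  have h3 : α * C * (m : ℝ) ^ (α - 1) * (m * (2 / k)) ≤ α * C * (m : ℝ) ^ (α - 1) * (m * 2) := by
    gcongr
    exact div_le_self (by norm_num) hk1
  have h4 : 0 ≤ (1 - α) * C * (m : ℝ) ^ α :=
    mul_nonneg (mul_nonneg (by linarith) hC) (by positivity)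
  have h5 : (r : ℝ) * (α * C * (m : ℝ) ^ (α - 1) * (m * (2 / k)) + (1 - α) * C * (m : ℝ) ^ α) ≤
      r * (2 * (C * (m : ℝ) ^ α)) := mul_le_mul_of_nonneg_left (by linarith) (Nat.cast_nonneg r)
  have h6 : ((r : ℝ) + 1) * 1 ≤ (r + 1) * (m : ℝ) ^ α := by gcongr
  have h7 : (0 : ℝ) ≤ (k : ℝ) ^ m := by positivity
  refine (mul_le_mul_of_nonneg_left (c := (r * (2 * C) + (r + 1)) * (m : ℝ) ^ α)
    (by linarith) h7).trans (le_of_eq (by ring))

/-- The same exponent for all Kronecker powers. -/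
theorem main_kron (k : ℕ) (A : Matrix (Fin k) (Fin k) ℂ) : ∃ K : ℝ, ∀ m : ℕ, 1 ≤ m →
    (size (kron A m) : ℝ) ≤ K * (k ^ m * (m : ℝ) ^ (1 - 1 / 50000 : ℝ)) := by
  rcases Nat.eq_zero_or_pos k with rfl | hk
  · refine ⟨0, fun m hm => ?_⟩
    have h := size_le (cost_naive (kron A m))
    have h0 : (0 : ℕ) ^ m = 0 := zero_pow (by omega)
    rw [Fintype.card_fin] at h
    have h1 : size (kron A m) = 0 := Nat.le_zero.1 (h.trans (by simp [h0]))
    simp [h1]
  obtain ⟨C, hC, h⟩ := zr_le_pow' rfl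
  have hz : ∀ n : ℕ, 1 ≤ n → zr n ≤ C * (n : ℝ) ^ (1 - 1 / 50000 : ℝ) := fun n hn =>
    (h n hn).trans (mul_le_mul_of_nonneg_left
      (Real.rpow_le_rpow_of_exponent_le (by exact_mod_cast hn) (by norm_num)) hC)
  obtain ⟨l, l', d, rfl⟩ := Pivot.exists_list_transvec_mul_diagonal_mul_list_transvec A
  refine ⟨(l.length * (2 * C) + (l.length + 1)) + 1 + (l'.length * (2 * C) + (l'.length + 1)),
    fun m hm => ?_⟩
  obtain ⟨s, hs, hb⟩ := cost_word_pow (by norm_num) (by norm_num) hC hz hk (word_list l) hm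
  obtain ⟨s', hs', hb'⟩ := cost_word_pow (by norm_num) (by norm_num) hC hz hk (word_list l') hm
  have hmul : ∀ A B : Matrix (Fin k) (Fin k) ℂ, tpow (A * B) m = tpow A m * tpow B m :=
    fun A B => tprod_mul (fun _ => A) fun _ => B
  have h1 := (hs.mul (tpow_diag d m ▸ Cost.diag fun x : Fin m → Fin k => ∏ i, d (x i))).mul hs'
  rw [← hmul, ← hmul] at h1
  have h2 : (size (kron _ m) : ℝ) ≤ (s + Fintype.card (Fin m → Fin k) + s' : ℕ) :=
    Nat.cast_le.2 (size_le ((eqv_kron _ m).cost h1))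
  have h3 : (k : ℝ) ^ m * 1 ≤ k ^ m * (m : ℝ) ^ (1 - 1 / 50000 : ℝ) := mul_le_mul_of_nonneg_left
    (Real.one_le_rpow (by exact_mod_cast hm) (by norm_num)) (by positivity)
  simp only [Fintype.card_pi, Fintype.card_fin, Finset.prod_const, Finset.card_univ] at h2
  push_cast at h2
  linarith

/-- The transfer from the Walsh-Hadamard transform. -/
theorem main_aff : ∃ K : ℝ, ∀ a b : ℝ, 0 ≤ a → 0 ≤ b →
    (∀ m : ℕ, (size (kron (P344D17.F 2) m) : ℝ) ≤ 2 ^ m * (a * m + b)) → ∀ n : ℕ, 4 ≤ n →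
      (size (P344D17.F n) : ℝ) ≤
        K * (n * (a * Real.logb 2 n + (b + 1) * Real.logb 2 (Real.logb 2 n))) := by
  obtain ⟨K, hK0, hK⟩ := L_le_aff
  refine ⟨5 * K, fun a b ha hb h n hn => ?_⟩
  have hr : Rate (3 * a) (3 * b + 4) := fun j =>
    ⟨_, cost_zeta_of_hadamard ((eqv_H j).symm.cost (cost_size _)), by
      have := h j
      push_cast
      linarith⟩
  obtain ⟨h1, h2, -⟩ := logs_ge hn
  rw [size_F]
  refine (hK _ _ (by positivity) (by positivity) hr n hn).trans ?_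
  rw [mul_comm 5 K, mul_assoc K, mul_left_comm 5]
  have h3 : 0 ≤ a * Real.logb 2 n := by positivity
  have h4 : 0 ≤ b * Real.logb 2 (Real.logb 2 n) := by positivity
  gcongr
  linarith

/-- The two transforms have the same exponent. -/
theorem main_iff (α : ℝ) (h0 : 0 ≤ α) (h1 : α < 1) :
    (∀ β : ℝ, α < β → ∃ K : ℝ, ∀ n : ℕ, 2 ≤ n →
      (size (P344D17.F n) : ℝ) ≤ K * (n * Real.logb 2 n ^ β)) ↔
    ∀ β : ℝ, α < β → ∃ K : ℝ, ∀ m : ℕ, 1 ≤ m →
      (size (kron (P344D17.F 2) m) : ℝ) ≤ K * (2 ^ m * (m : ℝ) ^ β) := by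
  simp only [size_F]
  refine ⟨fun h β hβ => ?_, fun h β hβ => ?_⟩
  · obtain ⟨K, hK⟩ := h β hβ
    refine all_of_large (N := 2) (C := 2 * max K 0 + 3) (fun _ => Nat.cast_nonneg _)
      (fun m hm => by have : (0 : ℝ) < m := by exact_mod_cast hm
                      positivity) fun m hm => ?_
    have h2 : 2 ^ 2 ≤ 2 ^ m := Nat.pow_le_pow_right (by norm_num) hm
    have h3 : (size (kron (P344D17.F 2) m) : ℝ) ≤ (2 * L (2 ^ m - 1) + 3 * (2 ^ m - 1) : ℕ) :=
      Nat.cast_le.2 (size_le ((eqv_H m).cost (cost_hadamard m)))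
    have h4 := hK (2 ^ m - 1) (by omega)
    have h5 := logb_pos_of_two_le (m := 2 ^ m - 1) (by omega)
    have h6 : ((2 ^ m - 1 : ℕ) : ℝ) ≤ 2 ^ m := by exact_mod_cast Nat.sub_le _ _
    have h7 : Real.logb 2 ((2 ^ m - 1 : ℕ) : ℝ) ≤ m := by
      refine (Real.logb_le_logb_of_le (by norm_num) (by exact_mod_cast (by omega)) h6).trans ?_
      rw [Real.logb_pow, Real.logb_self_eq_one (by norm_num), mul_one]
    have h8 : K * (((2 ^ m - 1 : ℕ) : ℝ) * Real.logb 2 ((2 ^ m - 1 : ℕ) : ℝ) ^ β) ≤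
        max K 0 * (2 ^ m * (m : ℝ) ^ β) :=
      mul_le_mul (le_max_left _ _) (mul_le_mul h6 (Real.rpow_le_rpow (by linarith) h7
        (by linarith)) (by positivity) (by positivity)) (by positivity) (le_max_right _ _)
    have h9 : (2 : ℝ) ^ m * 1 ≤ 2 ^ m * (m : ℝ) ^ β := mul_le_mul_of_nonneg_left
      (Real.one_le_rpow (by exact_mod_cast (by omega)) (by linarith)) (by positivity)
    rw [Nat.cast_add, Nat.cast_mul, Nat.cast_mul, Nat.cast_ofNat, Nat.cast_ofNat] at h3
    linarith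
  · have h2 : α < min β 1 := lt_min hβ h1
    have h3 := min_le_left β 1
    have h4 := min_le_right β 1
    obtain ⟨K, hK⟩ := h ((α + min β 1) / 2) (by linarith)
    refine L_le_pow (α := (α + min β 1) / 2) (C := 3 * max K 0 + 4) (by linarith) (by linarith)
      (by linarith) (by positivity) fun m hm => ?_
    refine zr_le (cost_zeta_of_hadamard ((eqv_H m).symm.cost (cost_size _))) ?_
    have h5 := (hK m hm).trans (mul_le_mul_of_nonneg_right (le_max_left K 0) (by positivity))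
    have h9 : (2 : ℝ) ^ m * 1 ≤ 2 ^ m * (m : ℝ) ^ ((α + min β 1) / 2) := mul_le_mul_of_nonneg_left
      (Real.one_le_rpow (by exact_mod_cast hm) (by linarith)) (by positivity)
    push_cast
    linarith

theorem main_no : ¬ ∃ c : ℝ, 0 < c ∧ ∃ N : ℕ, ∀ n : ℕ, N ≤ n →
    c * (n * Real.logb 2 n) ≤ size (P344D17.F n) := by
  simp only [size_F]
  exact no_bound

end Vale.Agent.N344
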