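import Vale.Agent.P344D17.Defs

/-!
# P344: the least size of a circuit for a matrix; Kronecker powers
-/

namespace Vale.Agent.N344

open Vale.Agent.P344D17

/-- The least number of gates of a linear circuit whose outputs are `A x` for every `x`. -/
noncomputable def size {n : ℕ} (A : Matrix (Fin n) (Fin n) ℂ) : ℕ :=
  sInf {s | ∃ C : Circuit n, C.Computes A ∧ Nat.card C.G = s}

/-- The Kronecker power `A ⊗ ⋯ ⊗ A` (`m` factors): the entry at `(j, l)` is the product over
`i < m` of the entries of `A` at the `i`-th digits of `j` and `l` in base `k`. -/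
def kron {k : ℕ} (A : Matrix (Fin k) (Fin k) ℂ) (m : ℕ) :
    Matrix (Fin (k ^ m)) (Fin (k ^ m)) ℂ :=
  Matrix.of fun j l =>
    ∏ i : Fin m, A (finFunctionFinEquiv.symm j i) (finFunctionFinEquiv.symm l i)

end Vale.Agent.N344
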