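import Vale.Agent.P344X18.Run

/-!
P344: spaces of arrays which a circuit has computed; changes of frames of any rank.
-/

namespace Vale.Agent.N344

open Matrix Vale.Agent.P344 Vale.Agent.P344.R2.H715 Vale.Agent.P344X18

section gen

variable {ι κ μ J : Type} [Fintype ι] [Fintype κ] [Fintype J]

theorem cost_naive (A : Matrix κ ι ℂ) : Cost A (Fintype.card κ * (2 * Fintype.card ι)) := by
  have key : ∀ k : κ, Can Set.univ (inputs ι) (2 * Fintype.card ι)
      ({(1 + Fintype.card ι, fun x : ι → ℂ => ∑ i, A k i * x i)} :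
        Set (ℕ × ((ι → ℂ) → ℂ))) := by
    intro k
    have h := can_sum (Λ := Set.univ) (S := inputs ι) (d₀ := 0) (Finset.univ : Finset ι)
      (fun i x => x i) (fun i => A k i) (fun _ => Set.mem_univ _)
      (by
        rintro p rfl
        exact ⟨0, le_rfl, zero_mem_inputs _⟩)
      (by
        rintro ⟨p1, p2⟩ ⟨hp1, k, hp2⟩
        simp only at hp1 hp2
        subst hp1 hp2
        exact ⟨0, le_rfl, mem_inputs _⟩)
    rw [Finset.card_univ, Nat.zero_add] at h
    convert h using 3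
    funext x
    simp [Finset.sum_apply]
  refine ⟨1 + Fintype.card ι, (Can.family (2 * Fintype.card ι) _ key).mono_right
    (Avail.of_subset ?_)⟩
  rintro ⟨p1, p2⟩ ⟨hp1, i, hp2⟩
  simp only at hp1 hp2
  subst hp1 hp2
  exact Set.mem_iUnion.mpr ⟨i, rfl⟩

/-- Block diagonal matrices. -/
def blk [DecidableEq J] (A : J → Matrix μ ι ℂ) : Matrix (J × μ) (J × ι) ℂ :=
  fun p q => if p.1 = q.1 then A p.1 p.2 q.2 else 0

theorem cost_blk [DecidableEq J] {A : J → Matrix μ ι ℂ} {t : J → ℕ} (h : ∀ j, Cost (A j) (t j)) :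
    Cost (blk A) (∑ j, t j) := by
  choose d hd using fun j => (h j).can
  refine ⟨∑ j, d j, (Can.iUnion Finset.univ t _
    fun j _ => hd j (J × ι) fun i => (j, i)).mono_right ?_⟩
  rintro ⟨p1, p2⟩ ⟨hp1, ⟨j, k⟩, hp2⟩
  simp only at hp1 hp2
  subst hp1 hp2
  refine ⟨d j, Finset.single_le_sum (f := d) (fun _ _ => Nat.zero_le _) (Finset.mem_univ j), ?_⟩
  refine Set.mem_iUnion₂.2 ⟨j, Finset.mem_univ j, rfl, k, ?_⟩
  funext x
  simp [blk, Fintype.sum_prod_type]

omit [Fintype J] in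
theorem cost_add {A : Matrix κ ι ℂ} {B : Matrix μ κ ℂ} {s t : ℕ} (hA : Cost A s) (hB : Cost B t) :
    Cost (fromRows A (B * A)) (s + t) := by
  classical
  have h1 := (cost_rows (Cost.one (ι := κ)) hB).mul hA
  rwa [fromRows_mul, Matrix.one_mul, Nat.zero_add, Nat.add_comm] at h1

theorem cost_pred [DecidableEq J] (p : J → Prop) [DecidablePred p] :
    ∃ t : ℕ, Cost (Matrix.of fun x y : J → ZMod 2 =>
        ∏ j, (if p j then Cg else 1) (x j) (y j)) t ∧
      (t : ℝ) = 2 ^ Fintype.card J * rt Cg (Fintype.card {j // p j}) := by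
  set r := Fintype.card {j // p j} with hr
  let e : {j // p j} ≃ Fin r := Fintype.equivFin _
  let E : (J → ZMod 2) ≃ ({j // ¬p j} → ZMod 2) × (Fin r → ZMod 2) :=
    (Equiv.piEquivPiSubtypeProd p fun _ => ZMod 2).trans ((Equiv.prodComm _ _).trans
      (Equiv.prodCongr (Equiv.refl _) (Equiv.arrowCongr e (Equiv.refl _))))
  refine ⟨Fintype.card ({j // ¬p j} → ZMod 2) * cmin (tpow Cg r), ?_, ?_⟩
  · convert ((cmin_spec (tpow Cg r)).tensor_one (J := {j // ¬p j} → ZMod 2)).submatrix E E using 1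
    ext x y
    rw [Matrix.of_apply, ← Fintype.prod_subtype_mul_prod_subtype p, Matrix.submatrix_apply,
      tensor_apply, mul_comm]
    congr 1
    · rw [Matrix.one_apply]
      split_ifs with h
      · refine Finset.prod_eq_one fun j _ => ?_
        rw [if_neg j.2, show x j = y j from congrFun h j, Matrix.one_apply_eq]
      · obtain ⟨j, hj⟩ := Function.ne_iff.1 h
        exact Finset.prod_eq_zero (Finset.mem_univ j) (by
          rw [if_neg j.2]; exact Matrix.one_apply_ne hj)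
    · rw [tpow_apply, ← e.symm.prod_comp]
      exact Finset.prod_congr rfl fun i _ => by rw [if_pos (e.symm i).2]; rfl
  · have h1 : Fintype.card J = Fintype.card {j // ¬p j} + r := by
      rw [Fintype.card_subtype_compl, hr, Nat.sub_add_cancel (Fintype.card_subtype_le p)]
    rw [h1, rt]
    simp only [Fintype.card_pi, ZMod.card, Finset.prod_const, Finset.card_univ]
    push_cast
    field_simp
    ring

end gen

variable {m K : ℕ} {I : Type} [Fintype I]

/-- The frame `g` costs as much as `r` atoms together. -/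
def Rk (r : ℕ) (g : V m → ZMod 4) : Prop :=
  ∀ K, ∃ t : ℕ, Cost (tpow (P g) K) t ∧ (t : ℝ) ≤ (2 ^ m) ^ K * rt Cg (r * K)

/-- A family of arrays as one matrix. -/
def St' {κ X : Type} (x : κ → Matrix X I ℂ) : Matrix (κ × X) I ℂ := fun p => x p.1 p.2

/-- A circuit with `c + 2 n ^ 2` gates per point computes `n` arrays which span `T`. -/
def Has (n : ℕ) (c : ℝ) (T : Submodule ℂ (Matrix (Ar m K) I ℂ)) : Prop :=
  ∃ (κ : Type) (_ : Fintype κ) (x : κ → Matrix (Ar m K) I ℂ) (s : ℕ), Fintype.card κ ≤ n ∧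
    Cost (St' x) s ∧ (s : ℝ) ≤ (2 ^ m) ^ K * (c + 2 * (n : ℝ) ^ 2) ∧
      T ≤ Submodule.span ℂ (Set.range x)

omit [Fintype I] in
theorem exists_lin {κ J X : Type} [Fintype κ] [Fintype J] [Fintype X] {x : κ → Matrix X I ℂ}
    {v : J → Matrix X I ℂ} (h : ∀ j, v j ∈ Submodule.span ℂ (Set.range x)) :
    ∃ D : Matrix (J × X) (κ × X) ℂ,
      Cost D (Fintype.card X * (Fintype.card J * (2 * Fintype.card κ))) ∧ D * St' x = St' v := by
  classical
  choose B hB using fun j => (Submodule.mem_span_range_iff_exists_fun ℂ).1 (h j)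
  have h1 := (cost_blk fun _ : X => cost_naive (Matrix.of B)).submatrix
    (fun p : J × X => (p.2, p.1)) (Equiv.prodComm κ X)
  rw [Finset.sum_const, Finset.card_univ, smul_eq_mul] at h1
  refine ⟨_, h1, ?_⟩
  ext ⟨j, a⟩ i
  simp [Matrix.mul_apply, Fintype.sum_prod_type, blk, St', ← hB j, Matrix.sum_apply]

theorem card_Ar : (Fintype.card (Ar m K) : ℝ) = (2 ^ m) ^ K := by simp

theorem Has.step {n : ℕ} {c : ℝ} {T : Submodule ℂ (Matrix (Ar m K) I ℂ)} (h : Has n c T)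
    {J : Type} [Fintype J] (r : ℕ) (g : J → V m → ZMod 4) (v : J → Matrix (Ar m K) I ℂ)
    (hv : ∀ j, v j ∈ T) (hr : ∀ j, Rk r (g j)) :
    ∃ T', T ≤ T' ∧ (∀ j, Ph K I (g j) (v j) ∈ T') ∧
      Has (n + Fintype.card J) (c + Fintype.card J * rt Cg (r * K)) T' := by
  classical
  obtain ⟨κ, _, x, s, hn, hs, hb, hT⟩ := h
  obtain ⟨D, hD, hD'⟩ := exists_lin fun j => hT (hv j)
  choose t ht ht' using fun j => hr j K
  have h1 := cost_add hs ((cost_blk ht).mul hD)
  let y : κ ⊕ J → Matrix (Ar m K) I ℂ := Sum.elim x fun j => Ph K I (g j) (v j)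
  refine ⟨Submodule.span ℂ (Set.range y), hT.trans (Submodule.span_mono ?_),
    fun j => Submodule.subset_span ⟨.inr j, rfl⟩, κ ⊕ J, inferInstance, y,
    s + (∑ j, t j + Fintype.card (Ar m K) * (Fintype.card J * (2 * Fintype.card κ))), ?_,
    ?_, ?_, le_rfl⟩
  · rintro _ ⟨k, rfl⟩
    exact ⟨.inl k, rfl⟩
  · rw [Fintype.card_sum]
    omega
  · convert h1.submatrix (Equiv.sumProdDistrib κ J (Ar m K)) (Equiv.refl I) using 1
    rw [Matrix.mul_assoc, hD']
    ext ⟨k | j, a⟩ i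
    · rfl
    · simp [St', y, Ph_apply, Matrix.mul_apply, blk, Fintype.sum_prod_type]
  · have h2 : ((∑ j, t j : ℕ) : ℝ) ≤ Fintype.card J * ((2 ^ m) ^ K * rt Cg (r * K)) := by
      push_cast
      refine (Finset.sum_le_sum fun j _ => ht' j).trans (le_of_eq ?_)
      rw [Finset.sum_const, Finset.card_univ, nsmul_eq_mul]
    have h3 : (Fintype.card κ : ℝ) ≤ n := by exact_mod_cast hn
    have h4 : (0 : ℝ) ≤ Fintype.card J := Nat.cast_nonneg _
    have h5 : (0 : ℝ) ≤ n := Nat.cast_nonneg _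
    have h6 : (0 : ℝ) < (2 ^ m) ^ K := by positivity
    rw [Nat.cast_add, Nat.cast_add, Nat.cast_mul, card_Ar]
    push_cast at h2 ⊢
    generalize ((2 : ℝ) ^ m) ^ K = N at *
    have h7 : N * (Fintype.card J * (2 * Fintype.card κ)) ≤
        N * (2 * (2 * n * Fintype.card J + (Fintype.card J : ℝ) ^ 2)) := by
      refine mul_le_mul_of_nonneg_left ?_ h6.le
      nlinarith [mul_le_mul_of_nonneg_left h3 h4, mul_nonneg h4 h5]
    nlinarith

theorem Has.mono {n n' : ℕ} {c c' : ℝ} {T : Submodule ℂ (Matrix (Ar m K) I ℂ)} (h : Has n c T)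
    (h1 : n ≤ n') (h2 : c ≤ c') : Has n' c' T := by
  obtain ⟨κ, _, x, s, hn, hs, hb, hT⟩ := h
  refine ⟨κ, inferInstance, x, s, hn.trans h1, hs, hb.trans ?_, hT⟩
  have h3 : (n : ℝ) ≤ n' := by exact_mod_cast h1
  gcongr

theorem Has.out {n : ℕ} {c : ℝ} {T : Submodule ℂ (Matrix (Ar m K) I ℂ)} (h : Has n c T)
    {J : Type} [Fintype J] (v : J → Matrix (Ar m K) I ℂ) (hv : ∀ j, v j ∈ T) :
    ∃ s : ℕ, Cost (St' v) s ∧
      (s : ℝ) ≤ (2 ^ m) ^ K * (c + (2 * (n : ℝ) ^ 2 + Fintype.card J * (2 * n))) := by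
  obtain ⟨κ, _, x, s, hn, hs, hb, hT⟩ := h
  obtain ⟨D, hD, hD'⟩ := exists_lin fun j => hT (hv j)
  refine ⟨_, hD' ▸ hD.mul hs, ?_⟩
  have h3 : (Fintype.card κ : ℝ) ≤ n := by exact_mod_cast hn
  rw [Nat.cast_add, Nat.cast_mul, card_Ar]
  push_cast
  have h7 : ((2 : ℝ) ^ m) ^ K * (Fintype.card J * (2 * Fintype.card κ)) ≤
      (2 ^ m) ^ K * (Fintype.card J * (2 * n)) := by gcongr
  linarith

end Vale.Agent.N344

/-!
P344: one stage of the network. The central arrays are new, the side arrays are borrowed.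
-/

namespace Vale.Agent.N344

open Matrix Vale.Agent.P344.R2.H715 Vale.Agent.P344X18

/-- A design: the identity matrix is `J G` plus a matrix supported on the pairs `(s a, t a)`. -/
structure Dsg (S A C : Type) [Fintype A] [Fintype C] [DecidableEq S] where
  /-- first index -/
  s : A → S
  /-- second index -/
  t : A → S
  /-- entry -/
  e : A → ℂ
  /-- left factor -/
  J : S → C → ℂ
  /-- right factor -/
  G : C → S → ℂ
  id : ∀ x y, ∑ i, J x i * G i y + ∑ a, (if t a = y then (if s a = x then e a else 0) else 0) =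
    if x = y then 1 else 0

variable {P S A C : Type} [Fintype P] [Fintype S] [Fintype A] [Fintype C] [DecidableEq S]

theorem Dsg.sum_id (D : Dsg S A C) {M : Type} [AddCommGroup M] [Module ℂ M] (y : S → M) (x : S) :
    ∑ i, D.J x i • ∑ z, D.G i z • y z + ∑ a, (if D.s a = x then D.e a else 0) • y (D.t a) =
      y x := by
  have h1 : ∀ a, (if D.s a = x then D.e a else 0) • y (D.t a) =
      ∑ z, (if D.t a = z then (if D.s a = x then D.e a else 0) else 0) • y z := fun a => by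
    simp only [ite_smul, zero_smul, Finset.sum_ite_eq, Finset.mem_univ, if_true]
  simp only [h1, Finset.smul_sum, smul_smul]
  rw [Finset.sum_comm, Finset.sum_comm (s := (Finset.univ : Finset A)), ← Finset.sum_add_distrib]
  simp only [← Finset.sum_smul, ← add_smul, D.id]
  simp

variable {m K : ℕ} {I : Type} [Fintype I] {n : ℕ} {c : ℝ} {T : Submodule ℂ (Matrix (Ar m K) I ℂ)}

omit [Fintype I] in
theorem Ph_Ph {g g' g'' : V m → ZMod 4} (h : g'' = g + g') (A : Matrix (Ar m K) I ℂ) :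
    Ph K I g (Ph K I g' A) = Ph K I g'' A := by rw [h, Ph_add]

/-- The cost of a stage for one group. -/
noncomputable def stc (K : ℕ) (S A C : Type) [Fintype S] [Fintype A] [Fintype C]
    (a b u f : ℕ) : ℝ :=
  2 * Fintype.card S * rt Cg (a * K) + Fintype.card A * (2 * rt Cg (1 * K) + rt Cg (b * K) +
    rt Cg (f * K)) + Fintype.card C * rt Cg (u * K)

omit [Fintype I] [Fintype S] in
theorem mem_ite (D : Dsg S A C) {x : S} {w w' : A → Matrix (Ar m K) I ℂ} (hw : ∀ a, w a ∈ T)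
    (h : ∀ a, D.s a = x → w' a = w a) : ∑ a, (if D.s a = x then D.e a else 0) • w' a ∈ T := by
  refine Submodule.sum_mem _ fun a _ => ?_
  split_ifs with e
  · rw [h a e]
    exact T.smul_mem _ (hw a)
  · rw [zero_smul]
    exact T.zero_mem

/-- The upper arrays receive. -/
theorem Has.rev (H : Has n c T) (D : Dsg S A C) {a b u f : ℕ} (F : V m → ZMod 4)
    (U : P → V m → ZMod 4) (τ : P → S → V m → ZMod 4) (h1 : ∀ p x, Rk 1 (τ p x))
    (h2 : ∀ p x, Rk a (U p - τ p x)) (h3 : ∀ p x, Rk b (U p - τ p (D.s x) - τ p (D.t x)))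
    (h4 : ∀ p, Rk u (U p)) (h5 : ∀ p, Rk f (F - U p)) (X Y : P → S → Matrix (Ar m K) I ℂ)
    (d : P → A → Matrix (Ar m K) I ℂ) (hX : ∀ p x, Ph K I (τ p x) (X p x) ∈ T)
    (hY : ∀ p x, Y p x ∈ T) (hd : ∀ p x, d p x ∈ T) :
    ∃ T', T ≤ T' ∧ (∀ p x, Ph K I (U p) (X p x - Y p x) ∈ T') ∧
      (∀ p x, Ph K I (U p - τ p x) (Y p x) ∈ T') ∧ (∀ p x, Ph K I F (d p x) ∈ T') ∧
      Has (n + Fintype.card P * (2 * Fintype.card S + 4 * Fintype.card A + Fintype.card C))
        (c + Fintype.card P * stc K S A C a b u f) T' := by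
  obtain ⟨T1, l1, m1, H1⟩ := H.step (J := P × A) 1 (fun j => τ j.1 (D.s j.2))
    (fun j => d j.1 j.2 + Y j.1 (D.t j.2)) (fun j => add_mem (hd ..) (hY ..)) fun _ => h1 _ _
  obtain ⟨T2, l2, m2, H2⟩ := H1.step (J := P × C) u (fun j => U j.1)
    (fun j => ∑ z, D.G j.2 z • Y j.1 z)
    (fun j => l1 (Submodule.sum_mem _ fun z _ => T.smul_mem _ (hY ..))) fun _ => h4 _
  obtain ⟨T3, l3, m3, H3⟩ := H2.step (J := P × S) a (fun j => U j.1 - τ j.1 j.2)
    (fun j => Ph K I (τ j.1 j.2) (X j.1 j.2 - ∑ x, (if D.s x = j.2 then D.e x else 0) •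
      (d j.1 x + Y j.1 (D.t x))))
    (fun j => l2 (by
      simp only [map_sub, map_sum, map_smul]
      exact sub_mem (l1 (hX ..)) (mem_ite D (fun x => m1 (j.1, x)) fun x e => by rw [e])))
    fun _ => h2 _ _
  obtain ⟨T4, l4, m4, H4⟩ := H3.step (J := P × S) a (fun j => U j.1 - τ j.1 j.2)
    (fun j => Y j.1 j.2) (fun j => l3 (l2 (l1 (hY ..)))) fun _ => h2 _ _
  obtain ⟨T5, l5, m5, H5⟩ := H4.step (J := P × A) b
    (fun j => U j.1 - τ j.1 (D.s j.2) - τ j.1 (D.t j.2)) _ (fun j => l4 (l3 (l2 (m1 j))))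
    fun _ => h3 _ _
  obtain ⟨T6, l6, m6, H6⟩ := H5.step (J := P × A) 1 (fun j => τ j.1 (D.t j.2))
    (fun j => Ph K I (U j.1 - τ j.1 (D.t j.2)) (d j.1 j.2))
    (fun j => by
      have e1 := sub_mem (m5 j) (l5 (m4 (j.1, D.t j.2)))
      rwa [Ph_Ph (g'' := U j.1 - τ j.1 (D.t j.2)) (by abel), ← map_sub, add_sub_cancel_right] at e1)
    fun _ => h1 _ _
  have m6' : ∀ p x, Ph K I (U p) (d p x) ∈ T6 := fun p x => by
    have e1 := m6 (p, x)
    rwa [Ph_Ph (g'' := U p) (by simp)] at e1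
  obtain ⟨T7, l7, m7, H7⟩ := H6.step (J := P × A) f (fun j => F - U j.1) _
    (fun j => m6' j.1 j.2) fun _ => h5 _
  refine ⟨T7, (((((l1.trans l2).trans l3).trans l4).trans l5).trans l6).trans l7, fun p x => l7 ?_,
    fun p x => l7 (l6 (l5 (m4 (p, x)))), fun p x => ?_, H7.mono (le_of_eq ?_) (le_of_eq ?_)⟩
  · have e1 := l6 (l5 (l4 (m3 (p, x))))
    rw [Ph_Ph (g'' := U p) (by simp)] at e1
    have e2 : ∑ i, D.J x i • Ph K I (U p) (∑ z, D.G i z • Y p z) ∈ T6 :=
      Submodule.sum_mem _ fun i _ => T6.smul_mem _ (l6 (l5 (l4 (l3 (m2 (p, i))))))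
    have e3 := add_mem (sub_mem e1 e2) (mem_ite D (x := x) (m6' p) fun _ _ => rfl)
    simp only [← map_smul, ← map_sum, ← map_sub, ← map_add] at e3
    convert e3 using 2
    rw [← D.sum_id (Y p) x]
    simp only [smul_add, Finset.sum_add_distrib]
    abel
  · have e1 := m7 (p, x)
    rwa [Ph_Ph (g'' := F) (by simp)] at e1
  · simp only [Fintype.card_prod]
    ring
  · simp only [Fintype.card_prod, stc]
    push_cast
    ring

/-- The lower arrays receive. -/
theorem Has.fwd (H : Has n c T) (D : Dsg S A C) {a b u f : ℕ} (F : V m → ZMod 4)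
    (U : P → V m → ZMod 4) (τ : P → S → V m → ZMod 4) (h1 : ∀ p x, Rk 1 (τ p x))
    (h2 : ∀ p x, Rk a (U p - τ p x)) (h3 : ∀ p x, Rk b (U p - τ p (D.s x) - τ p (D.t x)))
    (h4 : ∀ p, Rk u (-U p)) (h5 : ∀ p, Rk f (F - U p)) (X Y : P → S → Matrix (Ar m K) I ℂ)
    (d : P → A → Matrix (Ar m K) I ℂ) (hX : ∀ p x, Ph K I (τ p x) (X p x) ∈ T)
    (hY : ∀ p x, Y p x ∈ T) (hd : ∀ p x, d p x ∈ T) :
    ∃ T', T ≤ T' ∧ (∀ p x, Ph K I (U p) (X p x) ∈ T') ∧
      (∀ p x, Ph K I (U p - τ p x) (Y p x + X p x) ∈ T') ∧ (∀ p x, Ph K I F (d p x) ∈ T') ∧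
      Has (n + Fintype.card P * (2 * Fintype.card S + 4 * Fintype.card A + Fintype.card C))
        (c + Fintype.card P * stc K S A C a b u f) T' := by
  obtain ⟨T1, l1, m1, H1⟩ := H.step (J := P × A) 1 (fun j => τ j.1 (D.t j.2))
    (fun j => d j.1 j.2) (fun j => hd ..) fun _ => h1 _ _
  obtain ⟨T2, l2, m2, H2⟩ := H1.step (J := P × S) a (fun j => U j.1 - τ j.1 j.2) _
    (fun j => l1 (hX j.1 j.2)) fun _ => h2 _ _
  have m2' : ∀ p x, Ph K I (U p) (X p x) ∈ T2 := fun p x => by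
    have e1 := m2 (p, x)
    rwa [Ph_Ph (g'' := U p) (by simp)] at e1
  obtain ⟨T3, l3, m3, H3⟩ := H2.step (J := P × A) b
    (fun j => U j.1 - τ j.1 (D.s j.2) - τ j.1 (D.t j.2))
    (fun j => Ph K I (τ j.1 (D.t j.2)) (d j.1 j.2 + X j.1 (D.t j.2)))
    (fun j => l2 (by rw [map_add]; exact add_mem (m1 j) (l1 (hX ..)))) fun _ => h3 _ _
  have m3' : ∀ p x, Ph K I (U p - τ p (D.s x)) (d p x + X p (D.t x)) ∈ T3 := fun p x => by
    have e1 := m3 (p, x)
    rwa [Ph_Ph (g'' := U p - τ p (D.s x)) (by simp)] at e1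
  obtain ⟨T4, l4, m4, H4⟩ := H3.step (J := P × C) u (fun j => -U j.1)
    (fun j => Ph K I (U j.1) (∑ z, D.G j.2 z • X j.1 z))
    (fun j => l3 (by
      simp only [map_sum, map_smul]
      exact Submodule.sum_mem _ fun z _ => T2.smul_mem _ (m2' ..))) fun _ => h4 _
  have m4' : ∀ p i, ∑ z, D.G i z • X p z ∈ T4 := fun p i => by
    have e1 := m4 (p, i)
    rwa [Ph_Ph (g'' := 0) (by simp), Ph_zero] at e1
  have l04 : T ≤ T4 := ((l1.trans l2).trans l3).trans l4
  obtain ⟨T5, l5, m5, H5⟩ := H4.step (J := P × S) a (fun j => U j.1 - τ j.1 j.2)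
    (fun j => Y j.1 j.2 - ∑ x, (if D.s x = j.2 then D.e x else 0) • d j.1 x +
      ∑ i, D.J j.2 i • ∑ z, D.G i z • X j.1 z)
    (fun j => add_mem (l04 (sub_mem (hY ..) (mem_ite D (hd j.1) fun _ _ => rfl)))
      (Submodule.sum_mem _ fun i _ => T4.smul_mem _ (m4' ..))) fun _ => h2 _ _
  obtain ⟨T6, l6, m6, H6⟩ := H5.step (J := P × A) 1 (fun j => τ j.1 (D.s j.2)) _
    (fun j => l5 (l4 (m3' j.1 j.2))) fun _ => h1 _ _
  obtain ⟨T7, l7, m7, H7⟩ := H6.step (J := P × A) f (fun j => F - U j.1)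
    (fun j => Ph K I (U j.1) (d j.1 j.2))
    (fun j => by
      have e1 := sub_mem (m6 j) (l6 (l5 (l4 (l3 (m2' j.1 (D.t j.2))))))
      rwa [Ph_Ph (g'' := U j.1) (by simp), ← map_sub, add_sub_cancel_right] at e1)
    fun _ => h5 _
  refine ⟨T7, ((l04.trans l5).trans l6).trans l7, fun p x => l7 (l6 (l5 (l4 (l3 (m2' p x))))),
    fun p x => l7 (l6 ?_), fun p x => ?_, H7.mono (le_of_eq ?_) (le_of_eq ?_)⟩
  · have e3 := add_mem (m5 (p, x)) (mem_ite D (x := x) (fun z => l5 (l4 (m3' p z)))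
      (w' := fun z => Ph K I (U p - τ p x) (d p z + X p (D.t z))) fun z e => by rw [e])
    simp only [← map_smul, ← map_sum, ← map_add] at e3
    convert e3 using 2
    rw [← D.sum_id (X p) x]
    simp only [smul_add, Finset.sum_add_distrib]
    abel
  · have e1 := m7 (p, x)
    rwa [Ph_Ph (g'' := F) (by simp)] at e1
  · simp only [Fintype.card_prod]
    ring
  · simp only [Fintype.card_prod, stc]
    push_cast
    ring

end Vale.Agent.N344
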