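import Vale.Agent.N344.Rank

/-!
P344: the network with three stages, for words of length nine.
-/

namespace Vale.Agent.N344

open Matrix Vale.Agent.P344.R2.H715 Vale.Agent.P344X18 Vale.Agent.P338Z Vale.Agent.P338Z.Des
  Vale.Agent.P338Z.Net.Cn

variable {m : ℕ} (ε : Fin m ≃ Fin 9 × Fin 9 × Fin 9)

/-- The word belongs to an orthonormal basis. -/
def One (x : CL (Fin 9)) : Prop := ∃ b p, Orth b ∧ b p = x

/-- The two words belong to an orthonormal basis. -/
def Two (x y : CL (Fin 9)) : Prop := ∃ b p q, p ≠ q ∧ Orth b ∧ b p = x ∧ b q = y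

theorem Rk.cast {r r' : ℕ} {g : V m → ZMod 4} (e : r = r') (h : Rk r g) : Rk r' g := e ▸ h

theorem rks {x y z : CL (Fin 9)} (hx : One x) (hy : One y) (hz : One z) :
    Rk 1 (N ε (some x) (some y) (some z)) ∧
    Rk 0 (N ε (some x) (some y) (some z) + N ε (some x) (some y) (some z)) ∧
    (Rk 8 (N ε none (some y) (some z) - N ε (some x) (some y) (some z)) ∧
      Rk 8 (N ε (some x) none (some z) - N ε (some x) (some y) (some z)) ∧
      Rk 8 (N ε (some x) (some y) none - N ε (some x) (some y) (some z))) ∧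
    Rk 64 (N ε none none (some z) - N ε (some x) none (some z) -
      (N ε none (some y) (some z) - N ε (some x) (some y) (some z))) ∧
    Rk 640 (N ε none none none - N ε (some x) (some y) none -
      (N ε none none (some z) - N ε (some x) (some y) (some z))) := by
  obtain ⟨b1, p, h1, rfl⟩ := hx
  obtain ⟨b2, q, h2, rfl⟩ := hy
  obtain ⟨b3, r, h3, rfl⟩ := hz
  refine ⟨rk_comb ε h1 h2 h3 [(1, some p, some q, some r)] 1 1 ?_ (by simp [sz]) (by simp),
    rk_comb ε h1 h2 h3 [(1, some p, some q, some r)] 1 2 ?_ (by simp [sz]) (by simp [two_mul]),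
    ⟨rk_comb ε h1 h2 h3 [(1, none, some q, some r), (-1, some p, some q, some r)] 8 1 ?_
      (by simp [sz]) (by simp; abel),
    rk_comb ε h1 h2 h3 [(1, some p, none, some r), (-1, some p, some q, some r)] 8 1 ?_
      (by simp [sz]) (by simp; abel),
    rk_comb ε h1 h2 h3 [(1, some p, some q, none), (-1, some p, some q, some r)] 8 1 ?_
      (by simp [sz]) (by simp; abel)⟩,
    rk_comb ε h1 h2 h3 [(1, none, none, some r), (-1, some p, none, some r),
      (-1, none, some q, some r), (1, some p, some q, some r)] 64 1 ?_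
      (by simp [sz]) (by simp; abel),
    rk_comb ε h1 h2 h3 [(1, none, none, none), (-1, some p, some q, none),
      (-1, none, none, some r), (1, some p, some q, some r)] 640 1 ?_
      (by simp [sz]) (by simp; abel)⟩ <;>
  rintro ⟨i, j, k⟩ <;> by_cases i = p <;> by_cases j = q <;> by_cases k = r <;> simp [pw, om, *]

theorem rks2 {x y : CL (Fin 9)} (hx : One x) (hy : One y) :
    (Rk 9 (N ε none (some x) (some y)) ∧ Rk 9 (-N ε (some x) none (some y)) ∧
      Rk 9 (N ε (some x) (some y) none)) ∧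
    Rk 720 (N ε none none none - N ε none (some x) (some y)) ∧
    Rk 720 (N ε none none none - N ε (some x) none (some y)) ∧
    Rk 720 (N ε none none none - N ε (some x) (some y) none) := by
  obtain ⟨b1, p, h1, rfl⟩ := hx
  obtain ⟨b2, q, h2, rfl⟩ := hy
  refine ⟨⟨rk_comb ε h1 h1 h2 [(1, none, some p, some q)] 9 1 ?_ (by simp [sz]) (by simp),
    Rk.cast (if_pos odd_neg_one)
      (rk_comb ε h1 h1 h2 [(1, some p, none, some q)] 9 (-1) ?_ (by simp [sz]) (by simp)),
    rk_comb ε h1 h2 h1 [(1, some p, some q, none)] 9 1 ?_ (by simp [sz]) (by simp)⟩,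
    rk_comb ε h1 h1 h2 [(1, none, none, none), (-1, none, some p, some q)] 720 1 ?_
      (by simp [sz]) (by simp; abel),
    rk_comb ε h1 h1 h2 [(1, none, none, none), (-1, some p, none, some q)] 720 1 ?_
      (by simp [sz]) (by simp; abel),
    rk_comb ε h1 h2 h1 [(1, none, none, none), (-1, some p, some q, none)] 720 1 ?_
      (by simp [sz]) (by simp; abel)⟩ <;>
  rintro ⟨i, j, k⟩ <;> simp only [pw, om, Option.elim, List.map_cons, List.map_nil,
    List.sum_cons, List.sum_nil] <;> split_ifs <;> norm_num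

theorem rks3 {x x' y z : CL (Fin 9)} (hx : Two x x') (hy : One y) (hz : One z) :
    Rk 7 (N ε none (some y) (some z) - N ε (some x) (some y) (some z) -
      N ε (some x') (some y) (some z)) ∧
    Rk 7 (N ε (some y) none (some z) - N ε (some y) (some x) (some z) -
      N ε (some y) (some x') (some z)) ∧
    Rk 7 (N ε (some y) (some z) none - N ε (some y) (some z) (some x) -
      N ε (some y) (some z) (some x')) := by
  obtain ⟨b1, p, p', hp, h1, rfl, rfl⟩ := hx
  obtain ⟨b2, q, h2, rfl⟩ := hy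
  obtain ⟨b3, r, h3, rfl⟩ := hz
  have hp' := hp.symm
  refine ⟨rk_comb ε h1 h2 h3 [(1, none, some q, some r), (-1, some p, some q, some r),
      (-1, some p', some q, some r)] 7 1 ?_ (by simp [sz]) (by simp; abel),
    rk_comb ε h2 h1 h3 [(1, some q, none, some r), (-1, some q, some p, some r),
      (-1, some q, some p', some r)] 7 1 ?_ (by simp [sz]) (by simp; abel),
    rk_comb ε h2 h3 h1 [(1, some q, some r, none), (-1, some q, some r, some p),
      (-1, some q, some r, some p')] 7 1 ?_ (by simp [sz]) (by simp; abel)⟩ <;>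
  rintro ⟨i, j, k⟩ <;> simp only [pw, om, Option.elim, List.map_cons, List.map_nil,
    List.sum_cons, List.sum_nil] <;> split_ifs <;> simp_all

theorem rk_full : Rk 729 (N ε none none none) :=
  rk_comb ε orth_ce orth_ce orth_ce [(1, none, none, none)] 729 1
    (fun _ => by simp [pw, om]) (by simp [sz]) (by simp)

variable {S A C : Type} [Fintype S] [Fintype A] [Fintype C] [DecidableEq S]

/-- The wires: data, side wires, idle wires. -/
abbrev Wi (S A E : Type) : Type := (Bool × S × S × S) ⊕ (Fin 3 × (S × S) × A) ⊕ E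

theorem net_has (D : Dsg S A C) (F : V m → ZMod 4) (u : S × S × S → V m → ZMod 4)
    (U0 U1 U2 : S × S → V m → ZMod 4) (W : S → V m → ZMod 4)
    (r : ∀ a b c, Rk 1 (u (a, b, c)) ∧ Rk 0 (u (a, b, c) + u (a, b, c)) ∧
      (Rk 8 (U0 (b, c) - u (a, b, c)) ∧ Rk 8 (U1 (a, c) - u (a, b, c)) ∧
        Rk 8 (U2 (a, b) - u (a, b, c))) ∧ Rk 64 (W c - U1 (a, c) - (U0 (b, c) - u (a, b, c))) ∧
      Rk 640 (F - U2 (a, b) - (W c - u (a, b, c))))
    (r2 : ∀ a b, (Rk 9 (U0 (a, b)) ∧ Rk 9 (-U1 (a, b)) ∧ Rk 9 (U2 (a, b))) ∧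
      Rk 720 (F - U0 (a, b)) ∧ Rk 720 (F - U1 (a, b)) ∧ Rk 720 (F - U2 (a, b)))
    (r3 : ∀ a b c, Rk 7 (U0 (b, c) - u (D.s a, b, c) - u (D.t a, b, c)) ∧
      Rk 7 (U1 (b, c) - u (b, D.s a, c) - u (b, D.t a, c)) ∧
      Rk 7 (U2 (b, c) - u (b, c, D.s a) - u (b, c, D.t a))) (r4 : Rk 729 F)
    {E I : Type} [Fintype E] [Fintype I] {K n : ℕ}
    {T : Submodule ℂ (Matrix (Ar m K) I ℂ)} (H0 : Has n 0 T)
    (x : Wi S A E → Matrix (Ar m K) I ℂ) (hx : ∀ w, x w ∈ T) :
    ∃ T', (∀ w, Ph K I F (x w) ∈ T') ∧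
      Has (n + 3 * (Fintype.card (S × S) *
          (2 * Fintype.card S + 4 * Fintype.card A + Fintype.card C)) +
          5 * Fintype.card (S × S × S) + Fintype.card E)
        (3 * Fintype.card S ^ 2 * stc K S A C 8 7 9 720 +
          2 * Fintype.card S ^ 3 * (rt Cg (64 * K) + rt Cg (640 * K)) +
          Fintype.card E * rt Cg (729 * K) + Fintype.card (S × S × S) * rt Cg 0) T' := by
  let X : S × S × S → Matrix (Ar m K) I ℂ := fun s => Ph K I (-u s) (x (.inl (true, s)))
  let Y : S × S × S → Matrix (Ar m K) I ℂ := fun s => x (.inl (false, s))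
  obtain ⟨T1, l1, a1, b1, c1, H1⟩ := H0.rev D F U0 (fun p a => u (a, p))
    (fun p a => (r a p.1 p.2).1) (fun p a => (r a p.1 p.2).2.2.1.1) (fun p a => (r3 a p.1 p.2).1)
    (fun p => (r2 p.1 p.2).1.1) (fun p => (r2 p.1 p.2).2.1) (fun p a => X (a, p))
    (fun p a => Y (a, p)) (fun p a => x (.inr (.inl (0, p, a))))
    (fun p a => by rw [Ph_Ph (g'' := 0) (by simp), Ph_zero]; exact hx _) (fun _ _ => hx _)
    fun _ _ => hx _
  obtain ⟨T2, l2, a2, H2⟩ := H1.step (J := S × S × S) 64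
    (fun s => W s.2.2 - U1 (s.1, s.2.2) - (U0 s.2 - u s)) _ (fun s => a1 s.2 s.1)
    fun s => (r s.1 s.2.1 s.2.2).2.2.2.1
  obtain ⟨T3, l3, b3, H3⟩ := H2.step (J := S × S × S) 64
    (fun s => W s.2.2 - U1 (s.1, s.2.2) - (U0 s.2 - u s)) _ (fun s => l2 (b1 s.2 s.1))
    fun s => (r s.1 s.2.1 s.2.2).2.2.2.1
  obtain ⟨T4, l4, a4, b4, c4, H4⟩ := H3.fwd D F U1 (fun p a => u (p.1, a, p.2))
    (fun p a => (r p.1 a p.2).1) (fun p a => (r p.1 a p.2).2.2.1.2.1)
    (fun p a => (r3 a p.1 p.2).2.1) (fun p => (r2 p.1 p.2).1.2.1) (fun p => (r2 p.1 p.2).2.2.1)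
    (fun p a => Ph K I (W p.2 - U1 p) (X (p.1, a, p.2) - Y (p.1, a, p.2)))
    (fun p a => Ph K I (W p.2 - U1 p) (Y (p.1, a, p.2))) (fun p a => x (.inr (.inl (1, p, a))))
    (fun p a => l3 (by
      have e := a2 (p.1, a, p.2)
      rw [Ph_Ph (g'' := u (p.1, a, p.2) + (W p.2 - U1 p)) (by simp only; abel)] at e
      rwa [Ph_Ph rfl]))
    (fun p a => by
      have e := b3 (p.1, a, p.2)
      rwa [Ph_Ph (g'' := W p.2 - U1 p) (by simp)] at e)
    fun _ _ => l3 (l2 (l1 (hx _)))
  obtain ⟨T5, l5, a5, H5⟩ := H4.step (J := S × S × S) 640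
    (fun s => F - U2 (s.1, s.2.1) - (W s.2.2 - u s)) _ (fun s => a4 (s.1, s.2.2) s.2.1)
    fun s => (r s.1 s.2.1 s.2.2).2.2.2.2
  obtain ⟨T6, l6, b6, H6⟩ := H5.step (J := S × S × S) 640
    (fun s => F - U2 (s.1, s.2.1) - (W s.2.2 - u s)) _ (fun s => l5 (b4 (s.1, s.2.2) s.2.1))
    fun s => (r s.1 s.2.1 s.2.2).2.2.2.2
  obtain ⟨T7, l7, a7, b7, c7, H7⟩ := H6.rev D F U2 (fun p a => u (p.1, p.2, a))
    (fun p a => (r p.1 p.2 a).1) (fun p a => (r p.1 p.2 a).2.2.1.2.2)
    (fun p a => (r3 a p.1 p.2).2.2) (fun p => (r2 p.1 p.2).1.2.2) (fun p => (r2 p.1 p.2).2.2.2)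
    (fun p a => Ph K I (F - U2 p) (X (p.1, p.2, a) - Y (p.1, p.2, a)))
    (fun p a => Ph K I (F - U2 p) (X (p.1, p.2, a))) (fun p a => x (.inr (.inl (2, p, a))))
    (fun p a => l6 (by
      have e := a5 (p.1, p.2, a)
      rw [Ph_Ph rfl, Ph_Ph (g'' := u (p.1, p.2, a) + (F - U2 p)) (by simp only; abel)] at e
      rwa [Ph_Ph rfl]))
    (fun p a => by
      have e := b6 (p.1, p.2, a)
      rwa [← map_add, add_sub_cancel, Ph_Ph rfl,
        Ph_Ph (g'' := F - U2 p) (by simp only; abel)] at e)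
    fun _ _ => l6 (l5 (l4 (l3 (l2 (l1 (hx _))))))
  obtain ⟨T8, l8, b8, H8⟩ := H7.step (J := S × S × S) 0 (fun s => u s + u s) _
    (fun s => b7 (s.1, s.2.1) s.2.2) fun s => (r s.1 s.2.1 s.2.2).2.1
  obtain ⟨T9, l9, b9, H9⟩ := H8.step (J := E) 729 (fun _ => F) (fun e => x (.inr (.inr e)))
    (fun _ => l8 (l7 (l6 (l5 (l4 (l3 (l2 (l1 (hx _))))))))) fun _ => r4
  refine ⟨T9, ?_, H9.mono (le_of_eq (by ring)) (le_of_eq ?_)⟩
  · rintro (⟨_ | _, s⟩ | ⟨j, p, a⟩ | e)
    · have e := T7.neg_mem (a7 (s.1, s.2.1) s.2.2)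
      rw [← map_sub, sub_sub_cancel_left, Ph_Ph (g'' := F) (by simp), map_neg, neg_neg] at e
      exact l9 (l8 e)
    · have e := b8 s
      rw [Ph_Ph rfl, Ph_Ph rfl, Ph_Ph (g'' := F) (by abel)] at e
      exact l9 e
    · fin_cases j
      exacts [l9 (l8 (l7 (l6 (l5 (l4 (l3 (l2 (c1 p a)))))))), l9 (l8 (l7 (l6 (l5 (c4 p a))))),
        l9 (l8 (c7 p a))]
    · exact b9 e
  · simp only [Fintype.card_prod, Nat.zero_mul]
    push_cast
    ring

include ε in
theorem net (D : Dsg S A C) (t : S → CL (Fin 9)) (h1 : ∀ x, One (t x))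
    (h2 : ∀ a, Two (t (D.s a)) (t (D.t a))) (E : Type) [Fintype E] [DecidableEq (Wi S A E)] :
    ∃ D0 : ℝ, 0 ≤ D0 ∧ ∀ K : ℕ, ∃ s : ℕ,
      Cost (tensor (1 : Matrix (Wi S A E) (Wi S A E) ℂ) (tpow (tpow Cg m) K)) s ∧
      (s : ℝ) ≤ (2 ^ m) ^ K * (3 * Fintype.card S ^ 2 * stc K S A C 8 7 9 720 +
        2 * Fintype.card S ^ 3 * (rt Cg (64 * K) + rt Cg (640 * K)) +
        Fintype.card E * rt Cg (729 * K) + D0) := by
  set n : ℕ := Fintype.card (Wi S A E) + 3 * (Fintype.card (S × S) *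
    (2 * Fintype.card S + 4 * Fintype.card A + Fintype.card C)) +
    5 * Fintype.card (S × S × S) + Fintype.card E with hn
  refine ⟨Fintype.card (S × S × S) * rt Cg 0 +
    (2 * (n : ℝ) ^ 2 + Fintype.card (Wi S A E) * (2 * n)),
    by have := rt_nonneg Cg 0; positivity, fun K => ?_⟩
  let x : Wi S A E → Matrix (Ar m K) (Wi S A E × Ar m K) ℂ := fun w a i =>
    (1 : Matrix (Wi S A E × Ar m K) (Wi S A E × Ar m K) ℂ) (w, a) i
  have H0 : Has (Fintype.card (Wi S A E)) 0 (Submodule.span ℂ (Set.range x)) :=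
    ⟨_, inferInstance, x, 0, le_rfl, Cost.one, by rw [Nat.cast_zero]; positivity, le_rfl⟩
  obtain ⟨T, hT, H⟩ := net_has D (N ε none none none)
    (fun s => N ε (some (t s.1)) (some (t s.2.1)) (some (t s.2.2)))
    (fun p => N ε none (some (t p.1)) (some (t p.2)))
    (fun p => N ε (some (t p.1)) none (some (t p.2)))
    (fun p => N ε (some (t p.1)) (some (t p.2)) none) (fun z => N ε none none (some (t z)))
    (fun a b c => rks ε (h1 a) (h1 b) (h1 c)) (fun a b => rks2 ε (h1 a) (h1 b))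
    (fun a b c => rks3 ε (h2 a) (h1 b) (h1 c)) (rk_full ε) H0 x
    fun w => Submodule.subset_span ⟨w, rfl⟩
  obtain ⟨s, hs, hb⟩ := H.out _ hT
  refine ⟨s, ?_, hb.trans (le_of_eq ?_)⟩
  · convert hs using 1
    ext ⟨w, a⟩ ⟨w', a'⟩
    rw [St', Ph_apply, N_full, P_full, Matrix.mul_apply, tensor_apply, Matrix.one_apply]
    by_cases hw : w = w' <;> simp [x, hw, Matrix.one_apply]
  · rw [← hn]
    ring

end Vale.Agent.N344

/-!
P344: the design of the 120 pairs of roots of `E8` (three times the coordinates in the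
hyperplane of sum zero of nine-space, plus three).
-/

namespace Vale.Agent.N344

open Matrix Vale.Agent.P338Z.Des Vale.Agent.P338Z.Net.Cn

/-- The table of the coordinates, in base eight. -/
def tab : ℕ := 218333531365622269358458154848151604439212621284603805313626502578349046796458842777409754090719380779493058139135582747766598055018341877565220413335007654932492016249187324981958767249695846902219797007184709467959833632153344465533722344158204205006167939986048288013664999497214196537260185043068056074742813884415434092605459157432681558219099244717321733590774605631208666032486843214791158813028637495014740862435323577100178977554711130105361079341618587310261688437908603175210669163783799023654506608383409862321281222738327800484806798901666592144272782414210063575255019208364319844764189382039696739433510198561761546031637177727527513462642052152928767569430785891682725088190773792822807983941942955497321746439184931974068996757669285978553753746997536351657754071167724645436904704224615619928380809292956298833018537179391733987377505377054889799880233680180836674259621288731303497855034998278288804733399428763234445591167249160900125663075439863304627565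

/-- A coordinate. -/
def dg (x i : ℕ) : ℕ := (tab >>> (3 * (9 * x + i))) % 8

/-- The scalar product. -/
def nip (x y : ℕ) : ℕ := dg x 0 * dg y 0 + dg x 1 * dg y 1 + dg x 2 * dg y 2 + dg x 3 * dg y 3 +
  dg x 4 * dg y 4 + dg x 5 * dg y 5 + dg x 6 * dg y 6 + dg x 7 * dg y 7 + dg x 8 * dg y 8

theorem nip_eq (x y : ℕ) : ∑ i : Fin 9, dg x i * dg y i = nip x y := by
  simp only [Fin.sum_univ_succ, nip, Finset.univ_eq_empty, Finset.sum_empty]
  simp only [Fin.val_succ, Fin.val_zero]
  ring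

theorem chk1 : ∀ x : Fin 120, ∀ y : Fin 120, if x = y then nip x y = 99 else
    nip x y = 72 ∨ nip x y = 81 ∨ nip x y = 90 := by decide +kernel

theorem chk2 : ∀ x : Fin 120, (∑ i : Fin 9, dg x i = 27) ∧ ∃ i : Fin 9, dg x i % 2 = 0 := by
  decide +kernel

theorem chk3 : ∀ x : Fin 120,
    (Finset.univ.filter fun y : Fin 120 => nip x y % 2 = 0).card = 56 := by decide +kernel

/-- The pairs which need a side wire. -/
abbrev Adj : Type := {p : Fin 120 × Fin 120 // nip p.1 p.2 % 2 = 0}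

theorem card_Adj : Fintype.card Adj = 6720 := by
  rw [Fintype.card_congr (Equiv.subtypeProdEquivSigmaSubtype
    fun x y : Fin 120 => nip x y % 2 = 0), Fintype.card_sigma]
  simp only [Fintype.card_subtype, chk3]
  simp

theorem ip_eq (x y : Fin 120) : ∑ i : Fin 8, ((dg x i : ℂ) - 3) / 18 * ((dg y i : ℂ) - dg y 8) =
    ((nip x y : ℂ) - 81) / 18 := by
  have h1 : ((∑ i : Fin 9, dg x i : ℕ) : ℂ) = 27 := by rw [(chk2 x).1]; norm_num
  have h2 : ((∑ i : Fin 9, dg y i : ℕ) : ℂ) = 27 := by rw [(chk2 y).1]; norm_num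
  simp only [Fin.sum_univ_succ, Finset.univ_eq_empty, Finset.sum_empty, Fin.val_succ,
    Fin.val_zero] at h1 h2 ⊢
  rw [nip]
  push_cast at h1 h2 ⊢
  linear_combination (-(dg y 8 : ℂ) / 18) * h1 - (3 / 18) * h2

/-- The design. -/
noncomputable def des : Dsg (Fin 120) Adj (Fin 8) where
  s a := a.1.1
  t a := a.1.2
  e a := -(((nip a.1.1 a.1.2 : ℂ) - 81) / 18)
  J x i := ((dg x i : ℂ) - 3) / 18
  G i y := (dg y i : ℂ) - dg y 8
  id x y := by
    have h := chk1 x y
    rw [ip_eq]
    by_cases h2 : nip x y % 2 = 0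
    · rw [Finset.sum_eq_single (⟨(x, y), h2⟩ : Adj), if_pos rfl, if_pos rfl, add_neg_cancel,
        if_neg]
      · intro e
        rw [if_pos e] at h
        omega
      · rintro ⟨⟨x', y'⟩, h3⟩ - hne
        split_ifs with e1 e2
        · exact absurd (Subtype.ext (Prod.ext e2 e1)) hne
        · rfl
        · rfl
      · exact fun h3 => absurd (Finset.mem_univ _) h3
    · rw [Finset.sum_eq_zero, add_zero]
      · split_ifs at h ⊢
        · rw [h]
          norm_num
        · rw [show nip x y = 81 by omega]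
          norm_num
      · rintro ⟨⟨x', y'⟩, h3⟩ -
        split_ifs with e1 e2
        · simp only at e1 e2 h3
          rw [e1, e2] at h3
          exact absurd h3 h2
        · rfl
        · rfl

/-- The binary word of a root. -/
def tw (x : Fin 120) : CL (Fin 9) := fun i => (dg x i : ZMod 2)

theorem tw_dot (x y : Fin 120) : tw x ⬝ᵥ tw y = (nip x y : ZMod 2) := by
  rw [← nip_eq]
  simp only [tw, dotProduct, Nat.cast_sum, Nat.cast_mul]

theorem tw_self (x : Fin 120) : tw x ⬝ᵥ tw x = 1 := by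
  have h := chk1 x x
  rw [if_pos rfl] at h
  rw [tw_dot, h]
  decide

theorem extend {b : Fin 9 → CL (Fin 9)} (hb : Orth b) {t : CL (Fin 9)} (ht : t ⬝ᵥ t = 1)
    {q : Fin 9} (hq : b q ⬝ᵥ t = 0) :
    ∃ b', Orth b' ∧ b' q = t ∧ ∀ p, p ≠ q → b p ⬝ᵥ t = 0 → b' p = b p := by
  have h1 : b q ⬝ᵥ b q = 1 := (hb q q).trans (if_pos rfl)
  refine ⟨fun k => tau (t + b q) (b k), hb.tau ?_, ?_, fun p hp h => tau_fix ?_⟩
  · rw [add_dotProduct, dotProduct_add, dotProduct_add, ht, h1, dotProduct_comm t, hq]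
    decide
  · have h : b q + b q = 0 := funext fun i => CharTwo.add_self_eq_zero _
    simp only [tau]
    rw [dotProduct_add, hq, h1, zero_add, one_smul, add_left_comm, h, add_zero]
  · rw [dotProduct_add, h, hb, if_neg hp, add_zero]

theorem one_tw (x : Fin 120) : One (tw x) := by
  obtain ⟨q, hq⟩ := (chk2 x).2
  obtain ⟨b, hb, h, -⟩ := extend orth_ce (tw_self x) (q := q) (by
    rw [ce_dot, tw, ZMod.natCast_eq_zero_iff]
    omega)
  exact ⟨b, q, hb, h⟩

theorem two_tw (a : Adj) : Two (tw (des.s a)) (tw (des.t a)) := by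
  have h0 : tw (des.s a) ⬝ᵥ tw (des.t a) = 0 := by
    rw [tw_dot, ZMod.natCast_eq_zero_iff]
    exact Nat.dvd_of_mod_eq_zero a.2
  obtain ⟨b, p, hb, hp⟩ := one_tw (des.s a)
  have hy := tw_self (des.t a)
  generalize tw (des.t a) = y at h0 hy ⊢
  rw [← hp] at h0 ⊢
  obtain ⟨q, hq, hq'⟩ : ∃ q, q ≠ p ∧ b q ⬝ᵥ y = 0 := by
    by_contra hn
    have h1 : ∀ z : ZMod 2, ¬z = 0 → z = 1 := by decide
    have h2 : ∀ q, b q ⬝ᵥ y = if q = p then 0 else 1 := fun q => by
      split_ifs with e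
      · rw [e, h0]
      · exact h1 _ fun h => hn ⟨q, e, h⟩
    have h3 : y ⬝ᵥ y = ∑ k, (b k ⬝ᵥ y) * (b k ⬝ᵥ y) := by
      conv_lhs => rw [← hb.span y, sum_dotProduct]
      simp only [hb.span y, smul_dotProduct, smul_eq_mul]
    simp only [hy, h2] at h3
    revert h3
    fin_cases p <;> decide
  obtain ⟨b', hb', h1, h2⟩ := extend hb hy hq'
  exact ⟨b', p, q, hq.symm, hb', h2 p hq.symm h0, h1⟩

end Vale.Agent.N344
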