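import Vale.Agent.N344.Has
import Vale.Agent.P338Z.Net.CNet

/-!
P344: the rank of a frame; frames in product bases.
-/

namespace Vale.Agent.N344

open Matrix Vale.Agent.P344.R2.H715 Vale.Agent.P344X18 Vale.Agent.P338Z Vale.Agent.P338Z.Des
  Vale.Agent.P338Z.Net.Cn

variable {m : ℕ}

theorem char_sum' (f : Fin m → ZMod 2 → ℂ) (x y : V m) :
    ∑ ξ : V m, chi (x ⬝ᵥ ξ) * (∏ a, f a (ξ a)) * chi (ξ ⬝ᵥ y) =
      ∏ a, (f a 0 + f a 1 * chi (x a + y a)) := by
  have h : ∀ a, f a 0 + f a 1 * chi (x a + y a) =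
      ∑ z, chi (x a * z) * f a z * chi (z * y a) := by
    intro a
    rw [sum_two, chi_add]
    simp only [mul_zero, zero_mul, chi_zero, mul_one, one_mul]
    ring
  simp only [h]
  rw [Finset.prod_univ_sum, Fintype.piFinset_univ]
  refine Finset.sum_congr rfl fun ξ _ => ?_
  rw [dotProduct, dotProduct, chi_sum, chi_sum, Finset.prod_mul_distrib, Finset.prod_mul_distrib]

/-- The shift of a residue. -/
def sh (z : ZMod 4) : ZMod 2 := if z = 1 + 1 ∨ z = -1 then 1 else 0

theorem one_bit (z : ZMod 4) (x y : ZMod 2) : (2 : ℂ)⁻¹ * (1 + i4 z * chi (x + y)) =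
    (if z = 1 ∨ z = -1 then Cg else 1) (x + sh z) y := by
  have hz : ∀ z : ZMod 4, z = 0 ∨ z = 1 ∨ z = 1 + 1 ∨ z = -1 := by decide
  have h2 : ∀ a a' : ZMod 2, a + 1 = a' ↔ ¬a = a' := by decide
  rw [chi_eq]
  rcases hz z with rfl | rfl | rfl | rfl
  · rw [if_neg (c := _ ∨ _) (by decide), show sh 0 = 0 by decide, i4_zero, add_zero,
      Matrix.one_apply]
    split_ifs <;> norm_num
  · rw [if_pos (c := _ ∨ _) (by decide), show sh 1 = 0 by decide, i4_one, add_zero, Cg, Cs]
    split_ifs <;> ring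
  · rw [if_neg (c := _ ∨ _) (by decide), show sh (1 + 1) = 1 by decide, i4_two, Matrix.one_apply]
    by_cases h : x = y <;> simp only [h2, h, not_true, not_false_iff, if_true, if_false] <;>
      norm_num
  · rw [if_pos (c := _ ∨ _) (by decide), show sh (-1) = 1 by decide, i4_neg, Cg, Cs]
    by_cases h : x = y <;> simp only [h2, h, not_true, not_false_iff, if_true, if_false] <;> ring

theorem P_diag (σ : Fin m → ZMod 4) (x y : V m) : P (fun ξ => ∑ a, σ a * lf (ξ a)) x y =
    ∏ a, (if σ a = 1 ∨ σ a = -1 then Cg else 1) (x a + sh (σ a)) (y a) := by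
  rw [P_apply]
  simp only [i4_sum]
  rw [char_sum' (fun a z => i4 (σ a * lf z)) x y,
    show (2 ^ m : ℂ)⁻¹ = ∏ _a : Fin m, (2 : ℂ)⁻¹ by simp, ← Finset.prod_mul_distrib]
  refine Finset.prod_congr rfl fun a _ => ?_
  rw [← one_bit, lf_zero, show lf 1 = 1 by decide, mul_zero, mul_one, i4_zero]

theorem rk_orth {β : Fin m → V m} (hβ : Orth β) (σ : Fin m → ZMod 4) :
    Rk (Fintype.card {a // σ a = 1 ∨ σ a = -1}) fun ξ => ∑ a, σ a * lf (β a ⬝ᵥ ξ) := by
  intro K
  have hinj : Function.Injective fun (x : V m) a => β a ⬝ᵥ x := fun x y h => by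
    rw [← hβ.span x, ← hβ.span y]
    exact Finset.sum_congr rfl fun a _ => by rw [show β a ⬝ᵥ x = β a ⬝ᵥ y from congrFun h a]
  let O : V m ≃ V m := Equiv.ofBijective _ (Finite.injective_iff_bijective.1 hinj)
  have hO : ∀ x y : V m, O x ⬝ᵥ O y = x ⬝ᵥ y := fun x y => by
    conv_rhs => rw [← hβ.span x, sum_dotProduct]
    exact Finset.sum_congr rfl fun a _ => by rw [smul_dotProduct]; rfl
  have hP : ∀ x y : V m, P (fun ξ => ∑ a, σ a * lf (β a ⬝ᵥ ξ)) x y =
      P (fun ξ => ∑ a, σ a * lf (ξ a)) (O x) (O y) := fun x y => by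
    rw [P_apply, P_apply, ← O.sum_comp (fun ξ => chi (O x ⬝ᵥ ξ) * _ * chi (ξ ⬝ᵥ O y))]
    simp only [hO]
    rfl
  obtain ⟨t, ht, he⟩ := cost_pred fun j : Fin K × Fin m => σ j.2 = 1 ∨ σ j.2 = -1
  refine ⟨t, ?_, le_of_eq ?_⟩
  · convert ht.submatrix (fun (X : Ar m K) j => O (X j.1) j.2 + sh (σ j.2))
      ((Equiv.piCongrRight fun _ => O).trans (Equiv.curry _ _ _).symm) using 1
    ext X Y
    simp only [tpow_apply, hP, P_diag, Matrix.submatrix_apply, Matrix.of_apply,
      Fintype.prod_prod_type]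
    rfl
  · let e : {j : Fin K × Fin m // σ j.2 = 1 ∨ σ j.2 = -1} ≃
        Fin K × {a // σ a = 1 ∨ σ a = -1} :=
      ⟨fun j => (j.1.1, ⟨j.1.2, j.2⟩), fun j => ⟨(j.1, j.2.1), j.2.2⟩, fun _ => rfl, fun _ => rfl⟩
    rw [he, Fintype.card_congr e]
    simp only [Fintype.card_prod, Fintype.card_fin]
    rw [mul_comm K m, pow_mul, mul_comm K]

variable {ι : Type} [Fintype ι] [DecidableEq ι] (ε : Fin m ≃ ι × ι × ι)

/-- The Kronecker product of three words. -/
def kr (a b c : CL ι) : V m := fun x => a (ε x).1 * b (ε x).2.1 * c (ε x).2.2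

omit [DecidableEq ι] in
theorem tf_eq (ξ : V m) (a b c : CL ι) : tf ε ξ a b c = kr ε a b c ⬝ᵥ ξ := by
  rw [dotProduct, ← ε.symm.sum_comp]
  simp [tf, kr, Fintype.sum_prod_type]

omit [DecidableEq ι] in
theorem kr_dot (a b c a' b' c' : CL ι) :
    kr ε a b c ⬝ᵥ kr ε a' b' c' = a ⬝ᵥ a' * (b ⬝ᵥ b' * c ⬝ᵥ c') := by
  rw [dotProduct, ← ε.symm.sum_comp]
  simp only [kr, Equiv.apply_symm_apply, Fintype.sum_prod_type, dotProduct]
  rw [Finset.sum_mul_sum, Finset.sum_mul]
  refine Finset.sum_congr rfl fun i _ => ?_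
  rw [Finset.mul_sum]
  refine Finset.sum_congr rfl fun j _ => ?_
  rw [Finset.mul_sum]
  exact Finset.sum_congr rfl fun k _ => by ring

/-- A weighted sum of atoms of a product basis. -/
def fw (b1 b2 b3 : ι → CL ι) (w : ι × ι × ι → ℤ) : V m → ZMod 4 :=
  ∑ x, w x • rho ε (b1 x.1) (b2 x.2.1) (b3 x.2.2)

variable {b1 b2 b3 : ι → CL ι}

theorem rk_fw (h1 : Orth b1) (h2 : Orth b2) (h3 : Orth b3) (w : ι × ι × ι → ℤ) :
    Rk (Fintype.card {x // Odd (w x)}) (fw ε b1 b2 b3 w) := by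
  have hβ : Orth fun a => kr ε (b1 (ε a).1) (b2 (ε a).2.1) (b3 (ε a).2.2) := fun a a' => by
    rw [kr_dot, h1, h2, h3]
    simp only [← ε.injective.eq_iff, Prod.ext_iff, ite_and]
    split_ifs <;> simp
  have h := rk_orth hβ fun a => w (ε a) * sg (b1 (ε a).1, b2 (ε a).2.1, b3 (ε a).2.2)
  convert h using 1
  · refine Fintype.card_congr (ε.symm.subtypeEquiv fun x => ?_)
    have h4 := sg_odd (l := (b1 x.1, b2 x.2.1, b3 x.2.2))
      ⟨(h1 _ _).trans (if_pos rfl), (h2 _ _).trans (if_pos rfl), (h3 _ _).trans (if_pos rfl)⟩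
    have h5 : ∀ z s : ZMod 4, s = 1 ∨ s = -1 →
        ((z * s = 1 ∨ z * s = -1) ↔ z = ((1 : ℤ) : ZMod 4) ∨ z = ((3 : ℤ) : ZMod 4)) := by decide
    rw [Equiv.apply_symm_apply, h5 _ _ h4, ZMod.intCast_eq_intCast_iff',
      ZMod.intCast_eq_intCast_iff', Int.odd_iff]
    omega
  · funext ξ
    rw [fw, Finset.sum_apply, ← ε.sum_comp]
    refine Finset.sum_congr rfl fun a _ => ?_
    rw [Pi.smul_apply, rho, tf_eq, zsmul_eq_mul, sg, mul_assoc (w (ε a) : ZMod 4)]

/-- The weights of a slot: one index, or all. -/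
def om (o : Option ι) (i : ι) : ℤ := o.elim 1 fun p => if i = p then 1 else 0

/-- A function of a slot: at one word, or the sum over the coordinate words. -/
def op {G : Type} [AddCommGroup G] (o : Option (CL ι)) (φ : CL ι → G) : G :=
  o.elim (∑ i, φ (ce i)) φ

/-- The frames of the network. -/
def N (A B C : Option (CL ι)) : V m → ZMod 4 :=
  op A fun a => op B fun b => op C fun c => rho ε a b c

/-- The sum over an orthonormal basis does not depend on the basis. -/
def Ind {G : Type} [AddCommGroup G] (φ : CL ι → G) : Prop :=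
  ∀ b : ι → CL ι, Orth b → ∑ i, φ (b i) = ∑ i, φ (ce i)

theorem Ind.op {G : Type} [AddCommGroup G] {φ : CL ι → CL ι → G} (h : ∀ y, Ind fun x => φ x y)
    (o : Option (CL ι)) : Ind fun x => op o (φ x) := fun b hb => by
  cases o with
  | none =>
    simp only [N344.op, Option.elim]
    rw [Finset.sum_comm, Finset.sum_comm (f := fun x i => φ (ce x) (ce i))]
    exact Finset.sum_congr rfl fun i _ => h _ b hb
  | some y => exact h y b hb

theorem Ind.slot {G : Type} [AddCommGroup G] {φ : CL ι → G} (h : Ind φ) {b : ι → CL ι}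
    (hb : Orth b) (o : Option ι) : ∑ i, om o i • φ (b i) = N344.op (o.map b) φ := by
  cases o with
  | none => simpa [om, N344.op] using h b hb
  | some p => simp [om, N344.op]

theorem ind_rho (y z : CL ι) : (Ind fun x => rho ε x y z) ∧ (Ind fun x => rho ε y x z) ∧
    Ind fun x => rho ε y z x := by
  have h : ∀ {b : ι → CL ι}, Orth b → ∀ η, ∑ i, wt y * (wt z * (wt (b i) * lf (b i ⬝ᵥ η))) =
      ∑ i, wt y * (wt z * (wt (ce i) * lf (ce i ⬝ᵥ η))) := fun hb η => by
    simp only [← Finset.mul_sum, hb.wt, orth_ce.wt]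
  refine ⟨fun b hb => funext fun ξ => ?_, fun b hb => funext fun ξ => ?_,
    fun b hb => funext fun ξ => ?_⟩
  · obtain ⟨η, hη⟩ := (tf_dot ε ξ y z).1
    simpa only [Finset.sum_apply, rho, hη, mul_assoc, mul_left_comm] using h hb η
  · obtain ⟨η, hη⟩ := (tf_dot ε ξ y z).2.1
    simpa only [Finset.sum_apply, rho, hη, mul_assoc, mul_left_comm] using h hb η
  · obtain ⟨η, hη⟩ := (tf_dot ε ξ y z).2.2
    simpa only [Finset.sum_apply, rho, hη, mul_assoc, mul_left_comm] using h hb η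

/-- Product weights. -/
def pw (o : Option ι × Option ι × Option ι) (x : ι × ι × ι) : ℤ :=
  om o.1 x.1 * (om o.2.1 x.2.1 * om o.2.2 x.2.2)

theorem fw_pw (h1 : Orth b1) (h2 : Orth b2) (h3 : Orth b3) (o : Option ι × Option ι × Option ι) :
    fw ε b1 b2 b3 (pw o) = N ε (o.1.map b1) (o.2.1.map b2) (o.2.2.map b3) := by
  rw [N, ← (Ind.op (fun y => Ind.op (fun z => (ind_rho ε y z).1) _) _).slot h1, fw,
    Fintype.sum_prod_type]
  refine Finset.sum_congr rfl fun i _ => ?_
  rw [← (Ind.op (fun z => (ind_rho ε (b1 i) z).2.1) _).slot h2, Fintype.sum_prod_type,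
    Finset.smul_sum]
  refine Finset.sum_congr rfl fun j _ => ?_
  rw [← (ind_rho ε (b1 i) (b2 j)).2.2.slot h3, Finset.smul_sum, Finset.smul_sum]
  exact Finset.sum_congr rfl fun k _ => by rw [pw, mul_smul, mul_smul]

theorem N_full : N ε none none none = qfull m := by
  rw [← full_eq ε]
  simp only [N, op, Option.elim, Net.full, List.map_map, Finset.sum_map_toList, Function.comp_def]

/-- The size of a slot. -/
def sz (o : Option ι) : ℤ := o.elim (Fintype.card ι) fun _ => 1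

theorem sum_pw (o : Option ι × Option ι × Option ι) :
    ∑ x, pw o x = sz o.1 * (sz o.2.1 * sz o.2.2) := by
  have h : ∀ o : Option ι, ∑ i, om o i = sz o := fun o => by cases o <;> simp [om, sz]
  simp only [pw, Fintype.sum_prod_type, ← Finset.mul_sum, ← Finset.sum_mul, h]

/-- Combinations of product frames. -/
theorem rk_comb (h1 : Orth b1) (h2 : Orth b2) (h3 : Orth b3)
    (l : List (ℤ × Option ι × Option ι × Option ι)) (r : ℕ) (c : ℤ)
    (h01 : ∀ x, (l.map fun z => z.1 * pw z.2 x).sum = 0 ∨ (l.map fun z => z.1 * pw z.2 x).sum = 1)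
    (hr : (l.map fun z => z.1 * (sz z.2.1 * (sz z.2.2.1 * sz z.2.2.2))).sum = r)
    {g : V m → ZMod 4}
    (hg : g = c • (l.map fun z => z.1 • N ε (z.2.1.map b1) (z.2.2.1.map b2) (z.2.2.2.map b3)).sum) :
    Rk (if Odd c then r else 0) g := by
  have e1 : fw ε b1 b2 b3 (fun x => (l.map fun z => z.1 * pw z.2 x).sum) =
      (l.map fun z => z.1 • N ε (z.2.1.map b1) (z.2.2.1.map b2) (z.2.2.2.map b3)).sum ∧
      ∑ x, (l.map fun z => z.1 * pw z.2 x).sum =
        (l.map fun z => z.1 * (sz z.2.1 * (sz z.2.2.1 * sz z.2.2.2))).sum := by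
    clear h01 hr hg
    induction l with
    | nil => simp [fw]
    | cons z l ih =>
      simp only [List.map_cons, List.sum_cons]
      rw [← ih.1, ← ih.2, ← fw_pw ε h1 h2 h3, ← sum_pw]
      simp only [fw, add_smul, mul_smul, Finset.sum_add_distrib, Finset.smul_sum, Finset.mul_sum,
        and_self]
  rw [← e1.1] at hg
  rw [← e1.2] at hr
  generalize hw : (fun x => (l.map fun z => z.1 * pw z.2 x).sum) = w at hg
  have hw' : ∀ x, (l.map fun z => z.1 * pw z.2 x).sum = w x := fun x => congrFun hw x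
  simp only [hw'] at h01 hr
  have h4 := rk_fw ε h1 h2 h3 fun x => c * w x
  convert h4 using 1
  · rw [Fintype.card_subtype]
    split_ifs with hc
    · have h5 : ∑ x, w x = ∑ x, if Odd (c * w x) then (1 : ℤ) else 0 :=
        Finset.sum_congr rfl fun x _ => by rcases h01 x with h | h <;> simp [h, hc]
      rw [hr, Finset.sum_boole] at h5
      exact_mod_cast h5
    · exact (Finset.card_eq_zero.2 (Finset.filter_eq_empty_iff.2
        fun x _ h => hc (Int.odd_mul.1 h).1)).symm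
  · rw [hg]
    simp only [fw, mul_smul, Finset.smul_sum]

end Vale.Agent.N344
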