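import Vale.Agent.N344.Net
import Vale.Agent.P344X18.Rec

/-!
P344: the recursion with calls of several sizes, and the numbers.
-/

namespace Vale.Agent.N344

open Matrix Vale.Agent.P344 Vale.Agent.P344.R2.H715 Vale.Agent.P344X18

theorem rt_step {W : Type} [Fintype W] [DecidableEq W] [Nonempty W] {r m K s : ℕ}
    (hW : Fintype.card W = 2 ^ r)
    (ht : Cost (tensor (1 : Matrix W W ℂ) (tpow (tpow Cg m) K)) s) {x : ℝ}
    (hb : (s : ℝ) ≤ (2 ^ m) ^ K * x) : rt Cg (r + m * K) ≤ x / 2 ^ r + rt Cg r := by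
  have e1 : Eqv (tensor (1 : Matrix (Fin r → ZMod 2) _ ℂ) (tpow Cg (m * K)))
      (tensor (1 : Matrix W W ℂ) (tpow (tpow Cg m) K)) :=
    (eqv_one (by simp [hW])).tensor (tpow_mul Cg m K).symm
  have h1 : tensor (tpow Cg r) (tpow Cg (m * K)) =
      tensor (tpow Cg r) 1 * tensor 1 (tpow Cg (m * K)) := by
    rw [← R2.H715.tensor_mul, Matrix.mul_one, Matrix.one_mul]
  have h2 := ((Eqv.tensor_comm _ _).cost
    ((cmin_spec (tpow Cg r)).tensor_one (J := Fin (m * K) → ZMod 2))).mul (e1.cost ht)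
  rw [← h1] at h2
  refine rt_le ((tpow_add Cg r (m * K)).cost h2) ?_
  have h3 : (cmin (tpow Cg r) : ℝ) = 2 ^ r * rt Cg r := by
    rw [rt, ZMod.card]
    push_cast
    field_simp
  simp only [Fintype.card_pi, ZMod.card, Finset.prod_const, Finset.card_univ, Fintype.card_fin]
  push_cast
  rw [h3, pow_add, pow_mul]
  refine (add_le_add le_rfl hb).trans (le_of_eq ?_)
  field_simp
  ring

theorem rt_rec' {S A C : Type} [Fintype S] [Fintype A] [Fintype C] [DecidableEq S]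
    (des : Dsg S A C) (tw : S → Fin 9 → ZMod 2) (one_tw : ∀ x, One (tw x))
    (two_tw : ∀ a, Two (tw (des.s a)) (tw (des.t a))) (hS : Fintype.card S = 120)
    (hA : Fintype.card A = 6720) (hC : Fintype.card C = 8) {m : ℕ} (hm : m = 729)
    (e : ℕ) (he : 293760000 + e = 2 ^ 29) : ∃ D : ℝ, 0 ≤ D ∧ ∀ K : ℕ, rt Cg (29 + m * K) ≤
    (14400 * (720 * rt Cg (8 * K) + 40320 * rt Cg (1 * K) + 20160 * rt Cg (7 * K) +
      20160 * rt Cg (720 * K) + 24 * rt Cg (9 * K) + 240 * rt Cg (64 * K) +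
      240 * rt Cg (640 * K)) + e * rt Cg (729 * K)) / 2 ^ 29 + D := by
  classical
  obtain ⟨ε⟩ : Nonempty (Fin m ≃ Fin 9 × Fin 9 × Fin 9) :=
    ⟨Fintype.equivOfCardEq (by simp only [Fintype.card_fin, Fintype.card_prod, hm])⟩
  obtain ⟨D, hD, h⟩ := net ε des tw one_tw two_tw (Fin e)
  refine ⟨D / 2 ^ 29 + rt Cg 29, by have := rt_nonneg Cg 29; positivity, fun K => ?_⟩
  obtain ⟨s, hs, hb⟩ := h K
  have : Nonempty S := Fintype.card_pos_iff.1 (by omega)
  refine (rt_step (r := 29) ?_ hs hb).trans (le_of_eq ?_)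
  · simp only [Fintype.card_sum, Fintype.card_prod, Fintype.card_fin, Fintype.card_bool, hS, hA]
    omega
  · simp only [stc, Fintype.card_fin, hS, hA, hC]
    push_cast
    ring

theorem rec_le' {z : ℕ → ℝ} (hs : Subadditive z) (h0 : ∀ n, 0 ≤ z n) {r m : ℕ} (hr : 1 ≤ r)
    (hm : 1 ≤ m) {ρ D α : ℝ} (hρ0 : 0 ≤ ρ) (hρ1 : ρ < 1) (hD : 0 ≤ D) (hα : 0 ≤ α)
    (h : ∀ (K : ℕ) (C : ℝ), 0 ≤ C →
      (∀ j : ℕ, 1 ≤ j → j ≤ m → z (j * K) ≤ C * ((j : ℝ) ^ α * (K : ℝ) ^ α)) →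
      z (r + m * K) ≤ ρ * (C * ((m : ℝ) ^ α * (K : ℝ) ^ α)) + D) :
    ∃ C : ℝ, 0 ≤ C ∧ ∀ n : ℕ, 1 ≤ n → z n ≤ C * (n : ℝ) ^ α := by
  set B := ∑ j ∈ Finset.range (r + m), z j with hB
  have hB0 : 0 ≤ B := Finset.sum_nonneg fun j _ => h0 j
  have hzB : ∀ j < r + m, z j ≤ B := fun j hj =>
    Finset.single_le_sum (fun j _ => h0 j) (Finset.mem_range.2 hj)
  set C := (D + B) / (1 - ρ) with hC
  have hC0 : 0 ≤ C := div_nonneg (by linarith) (by linarith)
  have hCD : C * (1 - ρ) = D + B := div_mul_cancel₀ _ (by linarith)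
  refine ⟨C, hC0, fun n => ?_⟩
  induction n using Nat.strong_induction_on with
  | _ n ih =>
    intro hn
    have hn1 : (1 : ℝ) ≤ (n : ℝ) ^ α := Real.one_le_rpow (by exact_mod_cast hn) hα
    have hC1 : C ≤ C * (n : ℝ) ^ α := le_mul_of_one_le_right hC0 hn1
    rcases lt_or_ge n (r + m) with hnm | hnm
    · have := hzB n hnm
      nlinarith
    · obtain ⟨k, rfl⟩ : ∃ k, n = r + k := ⟨n - r, by omega⟩
      have hK1 : 1 ≤ k / m := (Nat.one_le_div_iff (by omega)).2 (by omega)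
      have hdm : m * (k / m) + k % m = k := Nat.div_add_mod k m
      have hmod : k % m < m := Nat.mod_lt k (by omega)
      have h1 := hs (r + m * (k / m)) (k % m)
      rw [Nat.add_assoc, hdm] at h1
      have h2 := h (k / m) C hC0 fun j hj hjm => by
        have h3 := Nat.mul_le_mul_right (k / m) hjm
        have h4 := ih (j * (k / m)) (by omega) (Nat.mul_pos hj hK1)
        rwa [Nat.cast_mul, Real.mul_rpow (Nat.cast_nonneg _) (Nat.cast_nonneg _)] at h4
      have h4 := hzB (k % m) (by omega)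
      have h5 : (m : ℝ) ^ α * ((k / m : ℕ) : ℝ) ^ α ≤ ((r + k : ℕ) : ℝ) ^ α := by
        rw [← Real.mul_rpow (Nat.cast_nonneg _) (Nat.cast_nonneg _)]
        exact Real.rpow_le_rpow (by positivity)
          (by exact_mod_cast (by omega : m * (k / m) ≤ r + k)) hα
      have h6 : ρ * (C * ((m : ℝ) ^ α * ((k / m : ℕ) : ℝ) ^ α)) ≤
          ρ * (C * ((r + k : ℕ) : ℝ) ^ α) := by gcongr
      have h7 : D + B ≤ (1 - ρ) * (C * ((r + k : ℕ) : ℝ) ^ α) := by
        rw [← hCD, mul_comm C]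
        exact mul_le_mul_of_nonneg_left hC1 (by linarith)
      linarith

theorem pw_le {j L δ : ℝ} (hj : 0 < j) (hδ : 0 ≤ δ) (hL : Real.log 729 - Real.log j ≤ L)
    (h0 : 0 ≤ δ * L) (h1 : δ * L < 1) :
    j ^ (1 - δ) ≤ j / 729 * (1 / (1 - δ * L)) * 729 ^ (1 - δ) := by
  have h2 : j ^ (1 - δ) = j / 729 * Real.exp (δ * (Real.log 729 - Real.log j)) *
      729 ^ (1 - δ) := by
    rw [Real.rpow_def_of_pos hj, Real.rpow_def_of_pos (by norm_num), div_eq_mul_inv]
    conv_rhs => rw [← Real.exp_log hj, ← Real.exp_log (show (0 : ℝ) < 729 by norm_num)]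
    simp only [Real.log_exp, ← Real.exp_neg, ← Real.exp_add]
    congr 1
    ring
  rw [h2]
  have h3 := (Real.exp_le_exp.2 (mul_le_mul_of_nonneg_left hL hδ)).trans
    (Real.exp_bound_div_one_sub_of_interval h0 h1)
  gcongr

theorem logs : Real.log 729 - Real.log 1 ≤ 6.59328 ∧ Real.log 729 - Real.log 7 ≤ 4.64804 ∧
    Real.log 729 - Real.log 8 ≤ 4.51385 ∧ Real.log 729 - Real.log 9 ≤ 4.39552 ∧
    Real.log 729 - Real.log 64 ≤ 2.4344 ∧ Real.log 729 - Real.log 640 ≤ 0.1375 ∧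
    Real.log 729 - Real.log 720 ≤ 0.0125 := by
  have h1 := Real.log_two_gt_d9
  have h2 := Real.log_two_lt_d9
  have k : ∀ a b : ℝ, 0 < a → 0 < b → Real.log a - Real.log b ≤ a / b - 1 := fun a b ha hb => by
    rw [← Real.log_div ha.ne' hb.ne']
    exact Real.log_le_sub_one_of_pos (by positivity)
  have p : ∀ (a b : ℝ) (n : ℕ), a = b ^ n → Real.log a = n * Real.log b := fun a b n h => by
    rw [h, Real.log_pow]
  have e1 := p 729 3 6 (by norm_num)
  have e2 := p 243 3 5 (by norm_num)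
  have e3 := p 256 2 8 (by norm_num)
  have e4 := p 8 2 3 (by norm_num)
  have e5 := p 9 3 2 (by norm_num)
  have e6 := p 64 2 6 (by norm_num)
  have e7 : Real.log 63 = Real.log 9 + Real.log 7 := by
    rw [← Real.log_mul (by norm_num) (by norm_num)]
    norm_num
  have k1 := k 243 256 (by norm_num) (by norm_num)
  have k2 := k 64 63 (by norm_num) (by norm_num)
  have k3 := k 729 720 (by norm_num) (by norm_num)
  have k4 := k 720 640 (by norm_num) (by norm_num)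
  rw [Real.log_one]
  push_cast at *
  refine ⟨?_, ?_, ?_, ?_, ?_, ?_, ?_⟩ <;> linarith

theorem rt_le_rpow' {δ : ℝ} (hδ : δ = 201 / 10 ^ 7) : ∃ C : ℝ, 0 ≤ C ∧ ∀ n : ℕ, 1 ≤ n →
    rt Cg n ≤ C * (n : ℝ) ^ (1 - δ) := by
  obtain ⟨D, hD, h⟩ := rt_rec' des tw one_tw two_tw (Fintype.card_fin _) card_Adj
    (Fintype.card_fin _) rfl 243110912 (by norm_num)
  have hδ0 : 0 ≤ δ := by rw [hδ]; norm_num
  refine rec_le' (r := 29) (m := 729) (ρ := 1 - 1 / 10 ^ 11) (rt_subadditive Cg) (rt_nonneg Cg)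
    (by norm_num) (by norm_num) (by norm_num) (by norm_num) hD (by rw [hδ]; norm_num)
    fun K C hC hz => ?_
  refine (h K).trans (add_le_add ?_ le_rfl)
  obtain ⟨l1, l7, l8, l9, l64, l640, l720⟩ := logs
  have hK : (0 : ℝ) ≤ C * (K : ℝ) ^ (1 - δ) := by positivity
  have key : ∀ (j : ℕ) (L : ℝ), 1 ≤ j → j ≤ 729 → Real.log 729 - Real.log j ≤ L →
      0 ≤ L → L ≤ 7 → rt Cg (j * K) ≤ j / 729 * (1 / (1 - δ * L)) *
        (C * ((729 : ℝ) ^ (1 - δ) * (K : ℝ) ^ (1 - δ))) := fun j L h1 h2 h3 h4 h5 => by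
    have h6 := mul_le_mul_of_nonneg_left (pw_le (by exact_mod_cast h1 : (0 : ℝ) < j) hδ0 h3
      (mul_nonneg hδ0 h4) (by rw [hδ]; linarith)) hK
    refine (hz j h1 h2).trans ?_
    linarith
  have a1 := key 1 _ le_rfl (by norm_num) (by exact_mod_cast l1) (by norm_num) (by norm_num)
  have a7 := key 7 _ (by norm_num) (by norm_num) l7 (by norm_num) (by norm_num)
  have a8 := key 8 _ (by norm_num) (by norm_num) l8 (by norm_num) (by norm_num)
  have a9 := key 9 _ (by norm_num) (by norm_num) l9 (by norm_num) (by norm_num)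
  have a64 := key 64 _ (by norm_num) (by norm_num) l64 (by norm_num) (by norm_num)
  have a640 := key 640 _ (by norm_num) (by norm_num) l640 (by norm_num) (by norm_num)
  have a720 := key 720 _ (by norm_num) (by norm_num) l720 (by norm_num) (by norm_num)
  have a729 := hz 729 (by norm_num) le_rfl
  have hX : (0 : ℝ) ≤ C * ((729 : ℝ) ^ (1 - δ) * (K : ℝ) ^ (1 - δ)) := by positivity
  clear key hz h hK
  push_cast at a1 a7 a8 a9 a64 a640 a720 a729 ⊢
  generalize C * ((729 : ℝ) ^ (1 - δ) * (K : ℝ) ^ (1 - δ)) = X at *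
  subst hδ
  norm_num at a1 a7 a8 a9 a64 a640 a720 ⊢
  rw [div_le_iff₀ (by norm_num)]
  linarith

end Vale.Agent.N344
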